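import Vale.Agent.P237.Pins

/-!
P237: assembly of the projection volume bound for polytopes from the block statements.
-/

noncomputable section

open MeasureTheory Set Matrix
open scoped RealInnerProductSpace ENNReal

namespace Vale.Agent.P237

variable {n N : ℕ}

lemma isClosed_Poly (v : Fin N → E n) (c : Fin N → ℝ) : IsClosed (Poly v c) := by
  rw [show Poly v c = ⋂ i, {x | ⟪v i, x⟫ ≤ c i} by ext x; simp [Poly]]
  exact isClosed_iInter fun i => isClosed_le (by fun_prop) continuous_const

lemma convex_Poly (v : Fin N → E n) (c : Fin N → ℝ) : Convex ℝ (Poly v c) := by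
  rw [show Poly v c = ⋂ i, {x | ⟪v i, x⟫ ≤ c i} by ext x; simp [Poly]]
  exact convex_iInter fun i => convex_halfSpace_le (innerSL ℝ (v i)).isLinear _

lemma det_toEuclideanLin (T : Matrix (Fin n) (Fin n) ℝ) :
    LinearMap.det (toEuclideanLin T) = T.det := by
  rw [Matrix.toEuclideanLin_eq_toLin_orthonormal, LinearMap.det_toLin]

lemma volume_image_toEuclideanLin {T : Matrix (Fin n) (Fin n) ℝ} (hT : |T.det| = 1)
    (s : Set (E n)) : volume (toEuclideanLin T '' s) = volume s := by
  rw [Measure.addHaar_image_linearMap, det_toEuclideanLin, hT, ENNReal.ofReal_one, one_mul]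

lemma inner_toEuclideanLin_transpose (T : Matrix (Fin n) (Fin n) ℝ) (x y : E n) :
    ⟪x, toEuclideanLin Tᵀ y⟫ = ⟪toEuclideanLin T x, y⟫ := by
  rw [← conjTranspose_eq_transpose_of_trivial, toEuclideanLin_conjTranspose_eq_adjoint,
    LinearMap.adjoint_inner_right]

lemma toEuclideanLin_mul_apply (S T : Matrix (Fin n) (Fin n) ℝ) (x : E n) :
    toEuclideanLin S (toEuclideanLin T x) = toEuclideanLin (S * T) x := by
  simp [Matrix.toLpLin_apply, Matrix.mulVec_mulVec]

lemma image_zono (L : E n →ₗ[ℝ] E n) (a : Fin N → E n) :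
    L '' zono a = zono fun i => L (a i) := by
  simp only [zono, Set.image_image, map_sum, map_smul]

lemma isCompact_zono (a : Fin N → E n) : IsCompact (zono a) :=
  (isCompact_univ_pi fun _ => isCompact_Icc).image (by fun_prop)

lemma projArea_nonneg (K : Set (E n)) (u : E n) : 0 ≤ projArea K u := ENNReal.toReal_nonneg

lemma projArea_vadd (K : Set (E n)) (x u : E n) :
    projArea ((fun y => x + y) '' K) u = projArea K u := by
  rw [projArea, projArea, Set.image_image]
  simp only [map_add]
  rw [← Set.image_image (fun y => (ℝ ∙ u)ᗮ.orthogonalProjectionOnto x + y)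
    (fun y => (ℝ ∙ u)ᗮ.orthogonalProjectionOnto y), Set.image_add_left, measure_preimage_add]

lemma projBody_vadd (K : Set (E n)) (x : E n) :
    projBody ((fun y => x + y) '' K) = projBody K := by
  simp only [projBody, projArea_vadd]

lemma isBounded_projBody (K : Set (E n)) : Bornology.IsBounded (projBody K) := by
  refine (isBounded_iff_forall_norm_le).2 ⟨∑ i, (|projArea K (EuclideanSpace.single i 1)| +
    |projArea K (-EuclideanSpace.single i 1)|), fun y hy => ?_⟩
  have h : ‖y‖ ≤ ∑ i, |y i| := by
    refine le_of_eq_of_le (congrArg norm ?_) ((norm_sum_le Finset.univ fun i =>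
      y i • EuclideanSpace.single i (1 : ℝ)).trans_eq ?_)
    · ext j; simp [Pi.single_apply]
    · simp [norm_smul]
  refine h.trans (Finset.sum_le_sum fun i _ => abs_le.2 ⟨?_, ?_⟩)
  · have := hy (-EuclideanSpace.single i 1) (by simp)
    simp only [inner_neg_right, EuclideanSpace.inner_single_right, conj_trivial, one_mul] at this
    linarith [le_abs_self (projArea K (-EuclideanSpace.single i 1)),
      abs_nonneg (projArea K (EuclideanSpace.single i 1))]
  · have := hy (EuclideanSpace.single i 1) (by simp)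
    simp only [EuclideanSpace.inner_single_right, conj_trivial, one_mul] at this
    linarith [le_abs_self (projArea K (EuclideanSpace.single i 1)),
      abs_nonneg (projArea K (-EuclideanSpace.single i 1))]

/-- If in every unimodular position the polytope with unit normals and all facets at distance one
keeps volume `B` inside the ball of radius `R`, the projection body has volume `B |K|^(n-1)`. -/
theorem normalized_bound_of_cap (hS : ShadowBound) (hP : PrismBound) (hM : MinkowskiFirst)
    (hZ : ZonoDet) (hPos : Position) (hn : 0 < n) (v : Fin N → E n) (hv : Function.Injective v)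
    (hb : Bornology.IsBounded (Poly v fun _ => 1)) {R B : ℝ} (hR : 1 ≤ R)
    (hcap : ∀ T : Matrix (Fin n) (Fin n) ℝ, |T.det| = 1 → B ≤
      (volume (Poly (fun i => ‖toEuclideanLin T (v i)‖⁻¹ • toEuclideanLin T (v i)) (fun _ => 1) ∩
        Metric.closedBall 0 R)).toReal) :
    B * (volume (Poly v fun _ => 1)).toReal ^ (n - 1) ≤
      (volume (projBody (Poly v fun _ => 1))).toReal := by
  set K := Poly v fun _ => 1 with hK
  set C := B * (volume K).toReal ^ (n - 1)
  set V := (volume (projBody K)).toReal
  have hV : 0 ≤ V := ENNReal.toReal_nonneg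
  rcases le_or_gt C 0 with hC0 | hC0
  · exact hC0.trans hV
  have hKc : IsCompact K := Metric.isCompact_of_isClosed_isBounded (isClosed_Poly _ _) hb
  set a : Fin N → E n := fun i => ((n : ℝ) * coneVol v i) • v i
  have hV0 : ∀ i, 0 ≤ coneVol v i := fun i => ENNReal.toReal_nonneg
  -- the zonotope lies in the projection body
  have hsub : zono a ⊆ projBody K := by
    rintro z ⟨l, hl, rfl⟩ u hu
    have h1 := (hP n N v u hn hv hb).trans (hS n K u hKc (convex_Poly _ _) hu)
    rw [ENNReal.ofReal_le_ofReal_iff (projArea_nonneg _ _)] at h1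
    refine le_trans ?_ h1
    rw [sum_inner]
    refine Finset.sum_le_sum fun i _ => ?_
    have hli := hl i (mem_univ i)
    simp only [a, real_inner_smul_left]
    have hc : 0 ≤ (n : ℝ) * coneVol v i := mul_nonneg (by positivity) (hV0 i)
    calc l i * ((n : ℝ) * coneVol v i * ⟪v i, u⟫)
        ≤ l i * ((n : ℝ) * coneVol v i * max ⟪v i, u⟫ 0) := by
          have := hli.1; gcongr; exact le_max_left _ _
      _ ≤ 1 * ((n : ℝ) * coneVol v i * max ⟪v i, u⟫ 0) :=
          mul_le_mul_of_nonneg_right hli.2 (mul_nonneg hc (le_max_right _ _))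
      _ = _ := one_mul _
  -- the total length of the edge vectors in any unimodular position is bounded below
  let f : Matrix (Fin n) (Fin n) ℝ → ℝ := fun T => ∑ i, ‖toEuclideanLin T (a i)‖
  have hlow : ∀ T : Matrix (Fin n) (Fin n) ℝ, |T.det| = 1 → C ≤ (f T / n) ^ n := by
    intro T hT
    set y := fun i => toEuclideanLin T (v i) with hy
    set e := fun i => ‖y i‖⁻¹ • y i with he
    have he1 : ∀ i, ‖e i‖ ≤ 1 := fun i => by
      rw [he, norm_smul, norm_inv, norm_norm, inv_mul_eq_div]; exact div_self_le_one _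
    set S := Poly e (fun _ => 1) ∩ Metric.closedBall (0 : E n) R
    set L := toEuclideanLin Tᵀ '' S
    have hScomp : IsCompact S := (isCompact_closedBall _ _).inter_left (isClosed_Poly _ _)
    have hL : L ⊆ Poly v fun i => ‖y i‖ := by
      rintro _ ⟨x, hx, rfl⟩ i
      rw [inner_toEuclideanLin_transpose]
      rcases eq_or_ne (y i) 0 with h0 | h0
      · simp [show toEuclideanLin T (v i) = 0 from h0, h0]
      · have := hx.1 i
        rw [he, real_inner_smul_left, inv_mul_le_iff₀ (norm_pos_iff.2 h0), mul_one] at this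
        exact this
    have h1 := hM n N v (fun i => ‖y i‖) L hn hv hb (fun i => norm_nonneg _)
      (hScomp.image (LinearMap.continuous_of_finiteDimensional _))
      (((convex_Poly _ _).inter (convex_closedBall _ _)).linear_image _)
      ⟨0, ⟨fun i => by simp, by simp; linarith⟩, map_zero _⟩ hL
    rw [volume_image_toEuclideanLin (by rwa [det_transpose])] at h1
    have h2 := hcap T hT
    have h3 : f T / n = ∑ i, coneVol v i * ‖y i‖ := by
      simp only [f, a, map_smul, norm_smul, Finset.sum_div, hy]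
      refine Finset.sum_congr rfl fun i _ => ?_
      rw [Real.norm_of_nonneg (mul_nonneg (by positivity) (hV0 i))]
      field_simp
    rw [h3]
    exact (mul_le_mul_of_nonneg_right h2 (by positivity)).trans h1
  -- infimum over positions
  set F := f '' {T | |T.det| = 1}
  have hne : F.Nonempty := ⟨_, 1, by simp, rfl⟩
  have hbdd : BddBelow F :=
    ⟨0, by rintro _ ⟨T, _, rfl⟩; exact Finset.sum_nonneg fun i _ => norm_nonneg _⟩
  set m := sInf F
  set c₀ := C ^ ((n : ℝ)⁻¹)
  set W := V ^ ((n : ℝ)⁻¹)
  have hnR : (0 : ℝ) < n := by exact_mod_cast hn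
  have hc₀ : 0 < c₀ := Real.rpow_pos_of_pos hC0 _
  have hc₀n : c₀ ^ n = C := Real.rpow_inv_natCast_pow hC0.le hn.ne'
  have hWn : W ^ n = V := Real.rpow_inv_natCast_pow hV hn.ne'
  have hcm : n * c₀ ≤ m := by
    refine le_csInf hne ?_
    rintro _ ⟨T, hT, rfl⟩
    have h := hlow T hT
    rw [← hc₀n] at h
    have hf : 0 ≤ f T := Finset.sum_nonneg fun i _ => norm_nonneg _
    have := (pow_le_pow_iff_left₀ hc₀.le (div_nonneg hf hnR.le) hn.ne').1 h
    rw [le_div_iff₀ hnR] at this
    linarith
  have hm : 0 < m := lt_of_lt_of_le (by positivity) hcm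
  have hupp : ∀ T : Matrix (Fin n) (Fin n) ℝ, |T.det| = 1 → m ^ 2 ≤ f T * (n * W) := by
    intro T hT
    set b := fun i => toEuclideanLin T (a i) with hbdef
    have h := hPos n N b m hn hm.le fun S hS => by
      refine (csInf_le hbdd ⟨S * T, ?_, rfl⟩).trans_eq ?_
      · simp [det_mul, abs_mul, hS, hT]
      · simp only [f, hbdef, ← toEuclideanLin_mul_apply]
    have hd : (gram (fun i => ‖b i‖⁻¹) b).det ≤ V := by
      have h1 := hZ n N (fun i => ‖b i‖⁻¹) b (fun i => by positivity)
        (fun i => by rw [inv_mul_eq_div]; exact div_self_le_one _)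
      rw [hbdef, ← image_zono, volume_image_toEuclideanLin hT] at h1
      exact (ENNReal.ofReal_le_iff_le_toReal (isBounded_projBody K).measure_lt_top.ne).1
        (h1.trans (measure_mono hsub))
    have hf : 0 ≤ f T := Finset.sum_nonneg fun i _ => norm_nonneg _
    refine (pow_le_pow_iff_left₀ (sq_nonneg m) (by positivity) hn.ne').1 ?_
    rw [← pow_mul, mul_pow (f T), mul_pow (n : ℝ), hWn, ← mul_assoc, ← mul_pow]
    exact h.trans (mul_le_mul_of_nonneg_left hd (by positivity))
  have hkey : m ≤ n * W := by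
    have hW : 0 ≤ W := Real.rpow_nonneg hV _
    rcases eq_or_lt_of_le (mul_nonneg hnR.le hW) with h0 | h0
    · have := hupp 1 (by simp)
      rw [← h0, mul_zero] at this
      nlinarith
    · have : m ^ 2 / (n * W) ≤ m := by
        refine le_csInf hne ?_
        rintro _ ⟨T, hT, rfl⟩
        rw [div_le_iff₀ h0]; exact hupp T hT
      rw [div_le_iff₀ h0] at this
      nlinarith
  have : c₀ ≤ W := le_of_mul_le_mul_left (hcm.trans hkey) hnR
  rw [← hc₀n, ← hWn]
  exact pow_le_pow_left₀ hc₀.le this n

/-- The projection body of a polytope has volume at least that of a truncated polytope with the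
same number of facets, all at distance one. -/
theorem normalized_bound (hS : ShadowBound) (hP : PrismBound) (hM : MinkowskiFirst) (hZ : ZonoDet)
    (hPos : Position) (hC : CapBound) (hn : 0 < n) (v : Fin N → E n) (hv : Function.Injective v)
    (hb : Bornology.IsBounded (Poly v fun _ => 1)) {R : ℝ} (hR : 1 ≤ R) :
    kappa n * (R ^ n - N * √(R ^ 2 - 1) ^ n) * (volume (Poly v fun _ => 1)).toReal ^ (n - 1) ≤
      (volume (projBody (Poly v fun _ => 1))).toReal :=
  normalized_bound_of_cap hS hP hM hZ hPos hn v hv hb hR fun T _ =>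
    hC n N _ R hn hR fun i => by
      rw [norm_smul, norm_inv, norm_norm, inv_mul_eq_div]; exact div_self_le_one _

/-- The bound for an arbitrary intersection of half-spaces with nonempty interior. -/
theorem general_bound (hS : ShadowBound) (hP : PrismBound) (hM : MinkowskiFirst) (hZ : ZonoDet)
    (hPos : Position) (hC : CapBound) (hn : 0 < n) (w : Fin N → E n) (c : Fin N → ℝ)
    (hb : Bornology.IsBounded (Poly w c)) (hi : (interior (Poly w c)).Nonempty) {R : ℝ}
    (hR : 1 ≤ R) :
    kappa n * (R ^ n - N * √(R ^ 2 - 1) ^ n) * (volume (Poly w c)).toReal ^ (n - 1) ≤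
      (volume (projBody (Poly w c))).toReal := by
  classical
  obtain ⟨x₀, hx₀⟩ := hi
  obtain ⟨δ, hδ, hball⟩ := Metric.isOpen_iff.1 isOpen_interior x₀ hx₀
  have hpos : ∀ i, w i ≠ 0 → 0 < c i - ⟪w i, x₀⟫ := by
    intro i hi
    have hn0 : 0 < ‖w i‖ := norm_pos_iff.2 hi
    have hmem : x₀ + (δ / 2 / ‖w i‖) • w i ∈ Metric.ball x₀ δ := by
      rw [mem_ball_iff_norm, add_sub_cancel_left, norm_smul, Real.norm_of_nonneg (by positivity),
        div_mul_cancel₀ _ hn0.ne']
      linarith
    have h := interior_subset (hball hmem) i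
    rw [inner_add_right, real_inner_smul_right, real_inner_self_eq_norm_sq] at h
    have : 0 < δ / 2 / ‖w i‖ * ‖w i‖ ^ 2 := by positivity
    linarith
  set u : Fin N → E n := fun i => (c i - ⟪w i, x₀⟫)⁻¹ • w i with hu
  set s := Finset.univ.image u
  set v : Fin s.card → E n := fun k => (s.equivFin.symm k : E n)
  have hv : Function.Injective v := Subtype.val_injective.comp s.equivFin.symm.injective
  have hrange : ∀ y, (∃ k, v k = y) ↔ ∃ i, u i = y := by
    intro y
    constructor
    · rintro ⟨k, rfl⟩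
      obtain ⟨i, -, hi⟩ := Finset.mem_image.1 (s.equivFin.symm k).2
      exact ⟨i, hi⟩
    · rintro ⟨i, rfl⟩
      exact ⟨s.equivFin ⟨u i, Finset.mem_image_of_mem u (Finset.mem_univ i)⟩, by simp [v]⟩
  have htrans : Poly w c = (fun y => x₀ + y) '' Poly v fun _ => 1 := by
    ext x
    have hiff : ∀ i, ⟪w i, x⟫ ≤ c i ↔ ⟪u i, x - x₀⟫ ≤ 1 := by
      intro i
      rcases eq_or_ne (w i) 0 with h0 | h0
      · have h := interior_subset hx₀ i
        simp [hu, h0] at h ⊢
        exact h
      · rw [hu, real_inner_smul_left, inv_mul_le_iff₀ (hpos i h0), mul_one, inner_sub_right]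
        constructor <;> intro h <;> linarith
    constructor
    · intro hx
      refine ⟨x - x₀, fun k => ?_, by abel_nf⟩
      obtain ⟨i, hik⟩ := (hrange (v k)).1 ⟨k, rfl⟩
      rw [← hik]
      exact (hiff i).1 (hx i)
    · rintro ⟨y, hy, rfl⟩ i
      obtain ⟨k, hk⟩ := (hrange (u i)).2 ⟨i, rfl⟩
      rw [hiff i, add_sub_cancel_left, ← hk]
      exact hy k
  have hb' : Bornology.IsBounded (Poly v fun _ => 1) := by
    obtain ⟨M, hM⟩ := isBounded_iff_forall_norm_le.1 hb
    refine isBounded_iff_forall_norm_le.2 ⟨M + ‖x₀‖, fun y hy => ?_⟩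
    have h1 := hM (x₀ + y) (htrans ▸ ⟨y, hy, rfl⟩)
    calc ‖y‖ = ‖(x₀ + y) - x₀‖ := by rw [add_sub_cancel_left]
      _ ≤ ‖x₀ + y‖ + ‖x₀‖ := norm_sub_le _ _
      _ ≤ M + ‖x₀‖ := by linarith
  have h := normalized_bound hS hP hM hZ hPos hC hn v hv hb' hR
  rw [htrans, projBody_vadd, Set.image_add_left, measure_preimage_add]
  refine le_trans ?_ h
  have hk : 0 ≤ kappa n := ENNReal.toReal_nonneg
  have hcard : (s.card : ℝ) ≤ N := by
    exact_mod_cast Finset.card_image_le.trans_eq (Finset.card_fin N)
  gcongr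

/-- Twice as many half-spaces as the dimension are few enough from dimension `20` on. -/
lemma two_mul_le_half : ∀ n : ℕ, 20 ≤ n →
    (2 * n : ℝ) * √(1 - Real.exp (-1)) ^ n ≤ 1 / 2 := by
  have hq : √(1 - Real.exp (-1)) ≤ 4 / 5 := by
    rw [Real.sqrt_le_iff]
    refine ⟨by norm_num, ?_⟩
    rw [Real.exp_neg]
    have h1 := Real.exp_one_lt_d9
    have h2 : (9 / 25 : ℝ) ≤ (Real.exp 1)⁻¹ := by
      rw [le_inv_comm₀ (by norm_num) (Real.exp_pos 1)]; linarith
    nlinarith
  intro n hn
  refine (mul_le_mul_of_nonneg_left (pow_le_pow_left₀ (Real.sqrt_nonneg _) hq n)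
    (by positivity)).trans ?_
  induction n, hn using Nat.le_induction with
  | base => norm_num
  | succ k hk ih =>
    rw [pow_succ]
    push_cast
    have : (20 : ℝ) ≤ k := by exact_mod_cast hk
    nlinarith [pow_pos (by norm_num : (0 : ℝ) < 4 / 5) k]

end Vale.Agent.P237

namespace Vale.Agent.P237

variable {n N : ℕ}

/-- The projection body is monotone under inclusion. -/
lemma projBody_mono {K K' : Set (E n)} (hK' : IsCompact K') (h : K ⊆ K') :
    projBody K ⊆ projBody K' := fun _ hy u hu => (hy u hu).trans <|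
  ENNReal.toReal_mono (hK'.image (ContinuousLinearMap.continuous _)).measure_lt_top.ne
    (measure_mono (image_mono h))

/-- Petty's inequality, strict, for compact sets that contain a polytope with exponentially few
facets filling a fixed fraction of their volume. -/
theorem petty_core (hS : ShadowBound) (hP : PrismBound) (hM : MinkowskiFirst) (hZ : ZonoDet)
    (hPos : Position) (hC : CapBound) (hB : BallConst) (hn : 4 ≤ n) (w : Fin N → E n)
    (c : Fin N → ℝ) (hb : Bornology.IsBounded (Poly w c)) (hi : (interior (Poly w c)).Nonempty)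
    {K : Set (E n)} (hK : IsCompact K) (hsub : Poly w c ⊆ K) {θ : ℝ} (hθ : 0 < θ) (hθ1 : θ ≤ 1)
    (hvol : θ * (volume K).toReal ≤ (volume (Poly w c)).toReal)
    (hN : (N : ℝ) * √(1 - θ ^ 2 * Real.exp (-1)) ^ n ≤ 1 / 2) :
    kappa (n - 1) ^ n * kappa n ^ ((2 : ℤ) - n) * (volume K).toReal ^ (n - 1) <
      (volume (projBody K)).toReal := by
  set s := √(Real.exp 1) with hs
  set q := √(1 - θ ^ 2 * Real.exp (-1))
  have hs1 : 1 ≤ s := Real.one_le_sqrt.2 (by linarith [Real.add_one_le_exp 1])
  have hR : 1 ≤ s / θ := by rw [le_div_iff₀ hθ]; linarith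
  have h := general_bound hS hP hM hZ hPos hC (by omega) w c hb hi hR
  have hsq : √((s / θ) ^ 2 - 1) = s / θ * q := by
    rw [← Real.sqrt_sq (zero_le_one.trans hR), ← Real.sqrt_mul (sq_nonneg _),
      Real.sqrt_sq (zero_le_one.trans hR), div_pow, hs, Real.sq_sqrt (Real.exp_pos 1).le]
    congr 1
    rw [Real.exp_neg]
    field_simp
  rw [hsq, mul_pow (s / θ) q] at h
  have hk : 0 < kappa n :=
    ENNReal.toReal_pos (Metric.measure_ball_pos volume _ one_pos).ne' measure_ball_lt_top.ne
  have hP0 : 0 < (volume (Poly w c)).toReal :=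
    ENNReal.toReal_pos (Measure.measure_pos_of_nonempty_interior volume hi).ne'
      hb.measure_lt_top.ne
  have hK0 : 0 < (volume K).toReal := hP0.trans_le
    (ENNReal.toReal_mono hK.measure_lt_top.ne (measure_mono hsub))
  have hmono : (volume (projBody (Poly w c))).toReal ≤ (volume (projBody K)).toReal :=
    ENNReal.toReal_mono (isBounded_projBody K).measure_lt_top.ne
      (measure_mono (projBody_mono hK hsub))
  refine lt_of_lt_of_le ?_ (h.trans hmono)
  have hz : kappa n ^ ((2 : ℤ) - n) = kappa n / kappa n ^ (n - 1) := by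
    rw [← zpow_natCast (kappa n) (n - 1), Nat.cast_sub (by omega)]
    nth_rw 2 [← zpow_one (kappa n)]
    rw [← zpow_sub₀ hk.ne']
    congr 1
    push_cast
    ring
  have hbc : kappa (n - 1) ^ n / kappa n ^ (n - 1) < s ^ n / 2 := by
    rw [div_lt_iff₀ (pow_pos hk _), mul_comm (s ^ n / 2)]
    exact hB n hn
  calc kappa (n - 1) ^ n * kappa n ^ ((2 : ℤ) - n) * (volume K).toReal ^ (n - 1)
      = kappa n * (kappa (n - 1) ^ n / kappa n ^ (n - 1)) * (volume K).toReal ^ (n - 1) := by
        rw [hz]; ring
    _ < kappa n * (s ^ n / 2) * (volume K).toReal ^ (n - 1) := by gcongr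
    _ ≤ kappa n * ((s / θ) ^ n / 2) * (θ * (volume K).toReal) ^ (n - 1) := by
        have hθn : θ ^ n = θ * θ ^ (n - 1) := by rw [← pow_succ', Nat.sub_add_cancel (by omega)]
        rw [div_pow, mul_pow, hθn,
          show kappa n * (s ^ n / (θ * θ ^ (n - 1)) / 2) * (θ ^ (n - 1) * (volume K).toReal ^ (n - 1))
            = kappa n * (s ^ n / 2) * (volume K).toReal ^ (n - 1) / θ by field_simp]
        exact le_div_self (by positivity) hθ hθ1
    _ ≤ kappa n * ((s / θ) ^ n - N * ((s / θ) ^ n * q ^ n)) *
          (volume (Poly w c)).toReal ^ (n - 1) := by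
        have hsθ : 0 ≤ (s / θ) ^ n := pow_nonneg (zero_le_one.trans hR) n
        gcongr
        · nlinarith [mul_le_mul_of_nonneg_left hN hsθ]
        · nlinarith [mul_le_mul_of_nonneg_left hN hsθ]

end Vale.Agent.P237
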