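import Vale.Agent.P237.Statement

/-!
P237: the cylinder of height one over a shadow has the volume of the shadow.
-/

noncomputable section

open MeasureTheory Set
open scoped RealInnerProductSpace ENNReal

namespace Vale.Agent.P237

theorem vol_shadowCylinder {n : ℕ} {K : Set (E n)} (hK : IsCompact K) {e : E n} (he : ‖e‖ = 1) :
    vol (shadowCylinder K e) = projArea K e := by
  set W : Submodule ℝ (E n) := (ℝ ∙ e)ᗮ with hW
  let σ : ℝ ≃ₗᵢ[ℝ] (ℝ ∙ e) := LinearIsometryEquiv.toSpanUnitSingleton e he
  let Φ : ℝ × W → E n := fun q =>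
    (ℝ ∙ e).orthogonalDecomposition.symm (WithLp.toLp 2 (Prod.map σ id q))
  have hΦm : MeasurePreserving Φ volume volume :=
    ((ℝ ∙ e).orthogonalDecomposition.symm.measurePreserving).comp
      ((WithLp.volume_preserving_toLp (ℝ ∙ e) W).comp
        (σ.measurePreserving.prod (MeasurePreserving.id (volume : Measure W))))
  have hΦ : ∀ q : ℝ × W, Φ q = q.1 • e + (q.2 : E n) := fun q => by
    simp [Φ, σ, LinearIsometryEquiv.toSpanUnitSingleton_apply,
      Submodule.orthogonalDecomposition_symm_apply]
  set P : Set W := W.orthogonalProjectionOnto '' K with hP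
  have hPc : IsCompact P := hK.image (W.orthogonalProjectionOnto).continuous
  have he' : W.orthogonalProjectionOnto e = 0 :=
    Submodule.orthogonalProjectionOnto_apply_of_mem_orthogonal
      ((ℝ ∙ e).le_orthogonal_orthogonal (Submodule.mem_span_singleton_self e))
  have hinner : ∀ y : W, ⟪e, (y : E n)⟫ = 0 := fun y =>
    Submodule.mem_orthogonal_singleton_iff_inner_right.1 y.2
  have hpre : Φ ⁻¹' shadowCylinder K e = Icc (0 : ℝ) 1 ×ˢ P := by
    ext ⟨t, y⟩
    simp only [mem_preimage, shadowCylinder, hΦ, mem_prod]
    constructor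
    · rintro ⟨h1, s, hs⟩
      rw [inner_add_right, real_inner_smul_right, real_inner_self_eq_norm_sq, he, hinner] at h1
      refine ⟨by simpa using h1, _, hs, ?_⟩
      rw [map_add, map_add, map_smul, map_smul, he',
        Submodule.orthogonalProjectionOnto_mem_subspace_eq_self]
      simp
    · rintro ⟨h1, z, hz, rfl⟩
      refine ⟨?_, ⟪e, z⟫ - t, ?_⟩
      · rw [inner_add_right, real_inner_smul_right, real_inner_self_eq_norm_sq, he, hinner]
        simpa using h1
      · convert hz using 1
        have hdec := (ℝ ∙ e).starProjection_add_starProjection_orthogonal z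
        rw [Submodule.starProjection_unit_singleton ℝ he] at hdec
        rw [Submodule.coe_orthogonalProjectionOnto_apply]
        conv_rhs => rw [← hdec]
        rw [sub_smul]; abel
  have hS : shadowCylinder K e = Φ '' (Icc (0 : ℝ) 1 ×ˢ P) := by
    rw [← hpre, image_preimage_eq_of_subset]
    intro x _
    refine ⟨(⟪e, x⟫, W.orthogonalProjectionOnto x), ?_⟩
    have hdec := (ℝ ∙ e).starProjection_add_starProjection_orthogonal x
    rw [Submodule.starProjection_unit_singleton ℝ he] at hdec
    rw [hΦ, Submodule.coe_orthogonalProjectionOnto_apply]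
    exact hdec
  have hcont : Continuous Φ := by
    rw [show Φ = fun q => q.1 • e + (q.2 : E n) from funext hΦ]
    fun_prop
  have hm : MeasurableSet (shadowCylinder K e) :=
    hS ▸ ((isCompact_Icc.prod hPc).image hcont).measurableSet
  rw [vol, ← hΦm.measure_preimage hm.nullMeasurableSet, hpre, Measure.volume_eq_prod,
    Measure.prod_prod, Real.volume_Icc]
  simp [projArea, P, W]

theorem projectionBody_eq {n : ℕ} {K : Set (E n)} (hK : IsCompact K) :
    projectionBody K = projBody K := by
  ext y
  simp only [projectionBody, projBody, mem_setOf_eq]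
  constructor <;> intro h u hu <;> have := h u hu
  · rwa [vol_shadowCylinder hK hu] at this
  · rwa [vol_shadowCylinder hK hu]

end Vale.Agent.P237
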