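import Vale.Agent.P237.Defs

/-!
P237: the statements of the blocks of the proof that polytopes with few facets satisfy the Petty
projection volume inequality. Each is a plain statement, proved in a file of its own.
-/

noncomputable section

open MeasureTheory Set Matrix
open scoped RealInnerProductSpace ENNReal

namespace Vale.Agent.P237

/-- What a segment of length one adds to a convex body is at most the area of its shadow. -/
def ShadowBound : Prop :=
  ∀ (n : ℕ) (K : Set (E n)) (e : E n), IsCompact K → Convex ℝ K → ‖e‖ = 1 →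
    volume {x | x ∉ K ∧ ∃ t ∈ Icc (0 : ℝ) 1, x - t • e ∈ K} ≤ ENNReal.ofReal (projArea K e)

/-- The prisms over the facets seen from a direction lie in what the segment adds. -/
def PrismBound : Prop :=
  ∀ (n N : ℕ) (v : Fin N → E n) (e : E n), 0 < n → Function.Injective v →
    Bornology.IsBounded (Poly v fun _ => 1) →
    ENNReal.ofReal (∑ i, (n : ℝ) * coneVol v i * max ⟪v i, e⟫ 0) ≤
      volume {x | x ∉ Poly v (fun _ => 1) ∧ ∃ t ∈ Icc (0 : ℝ) 1, x - t • e ∈ Poly v fun _ => 1}

/-- The first Minkowski inequality for a polytope, in terms of its cone volumes. -/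
def MinkowskiFirst : Prop :=
  ∀ (n N : ℕ) (v : Fin N → E n) (r : Fin N → ℝ) (L : Set (E n)), 0 < n → Function.Injective v →
    Bornology.IsBounded (Poly v fun _ => 1) → (∀ i, 0 ≤ r i) → IsCompact L → Convex ℝ L →
    0 ∈ L → L ⊆ Poly v r →
    (volume L).toReal * (volume (Poly v fun _ => 1)).toReal ^ (n - 1) ≤
      (∑ i, coneVol v i * r i) ^ n

/-- The volume of a zonotope is at least the determinant of a weighted Gram matrix. -/
def ZonoDet : Prop :=
  ∀ (n m : ℕ) (w : Fin m → ℝ) (a : Fin m → E n), (∀ i, 0 ≤ w i) → (∀ i, w i * ‖a i‖ ≤ 1) →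
    ENNReal.ofReal (gram w a).det ≤ volume (zono a)

/-- If no volume preserving map shortens the family below `f₀`, the Gram determinant is large. -/
def Position : Prop :=
  ∀ (n m : ℕ) (b : Fin m → E n) (f₀ : ℝ), 0 < n → 0 ≤ f₀ →
    (∀ S : Matrix (Fin n) (Fin n) ℝ, |S.det| = 1 → f₀ ≤ ∑ i, ‖toEuclideanLin S (b i)‖) →
    f₀ ^ (2 * n) ≤ ((∑ i, ‖b i‖) * n) ^ n * (gram (fun i => ‖b i‖⁻¹) b).det

/-- Few half-spaces at distance one cannot remove much from a ball. -/
def CapBound : Prop :=
  ∀ (n N : ℕ) (e : Fin N → E n) (R : ℝ), 0 < n → 1 ≤ R → (∀ i, ‖e i‖ ≤ 1) →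
    kappa n * (R ^ n - N * √(R ^ 2 - 1) ^ n) ≤
      (volume (Poly e (fun _ => 1) ∩ Metric.closedBall 0 R)).toReal

/-- The numerical comparison of ball volumes. -/
def BallConst : Prop :=
  ∀ n : ℕ, 4 ≤ n → kappa (n - 1) ^ n < kappa n ^ (n - 1) * (√(Real.exp 1) ^ n / 2)

end Vale.Agent.P237
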