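import Vale.Agent.P237.Defs
import Vale.Agent.P237.Pins

/-!
P237: the volume of a zonotope is at least the determinant of a weighted Gram matrix.
The proof adds one segment at a time: after a rotation the new segment is along the first axis,
the determinant grows by a multiple of a minor, and the volume by the length times the shadow.
-/

noncomputable section

open MeasureTheory Set Matrix
open scoped RealInnerProductSpace ENNReal

namespace Vale.Agent.P237.ZonoAux

/-- Forget the first coordinate. -/
def tail (k : ℕ) : E (k + 1) →ₗ[ℝ] E k where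
  toFun x := WithLp.toLp 2 fun j => x j.succ
  map_add' x y := by ext j; simp
  map_smul' c x := by ext j; simp

theorem tail_apply {k : ℕ} (x : E (k + 1)) (j : Fin k) : tail k x j = x j.succ := rfl

theorem norm_tail_le {k : ℕ} (x : E (k + 1)) : ‖tail k x‖ ≤ ‖x‖ := by
  rw [EuclideanSpace.norm_eq, EuclideanSpace.norm_eq, Fin.sum_univ_succ]
  refine Real.sqrt_le_sqrt ?_
  simp only [tail_apply]
  nlinarith [sq_nonneg ‖x 0‖]

theorem zono_map {n k m : ℕ} (f : E n →ₗ[ℝ] E k) (a : Fin m → E n) :
    zono (fun i => f (a i)) = f '' zono a := by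
  simp only [zono, Set.image_image, map_sum, map_smul]

theorem zono_nonempty {n m : ℕ} (a : Fin m → E n) : (zono a).Nonempty :=
  ⟨0, 0, fun i _ => by simp, by simp⟩

theorem isCompact_zono {n m : ℕ} (a : Fin m → E n) : IsCompact (zono a) :=
  (isCompact_univ_pi fun _ => isCompact_Icc).image
    (continuous_finsetSum _ fun i _ => (continuous_apply i).smul continuous_const)

theorem add_smul_mem_zono {n m : ℕ} (a : Fin (m + 1) → E n) {z : E n}
    (hz : z ∈ zono fun i : Fin m => a i.succ) {t : ℝ} (ht : t ∈ Icc (0 : ℝ) 1) :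
    z + t • a 0 ∈ zono a := by
  obtain ⟨l, hl, rfl⟩ := hz
  refine ⟨Fin.cons t l, fun i _ => ?_, ?_⟩
  · refine Fin.cases ?_ (fun j => ?_) i
    · simpa using ht
    · simpa using hl j (mem_univ _)
  · simp [Fin.sum_univ_succ, add_comm]

theorem gram_zero_dim {m : ℕ} (w : Fin m → ℝ) (a : Fin m → E 0) : (gram w a).det = 1 :=
  Matrix.det_fin_zero

theorem volume_zono_zero_dim {m : ℕ} (a : Fin m → E 0) : volume (zono a) = 1 := by
  rw [(zono_nonempty a).eq_univ]
  have h := ((EuclideanSpace.volume_preserving_symm_measurableEquiv_toLp (Fin 0))).measure_preimage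
    (s := (univ : Set (Fin 0 → ℝ))) nullMeasurableSet_univ
  rw [Set.preimage_univ] at h
  rw [h, volume_pi, Measure.pi_of_empty, measure_univ]

theorem gram_succ {n m : ℕ} (w : Fin (m + 1) → ℝ) (a : Fin (m + 1) → E n) :
    gram w a = gram (fun i : Fin m => w i.succ) (fun i : Fin m => a i.succ)
      + w 0 • vecMulVec (a 0) (a 0) := by
  simp only [gram, Fin.sum_univ_succ]
  rw [add_comm]

theorem gram_conj {n m : ℕ} (Q : E n ≃ₗᵢ[ℝ] E n) (w : Fin m → ℝ) (a : Fin m → E n) :
    (gram w fun i => Q (a i)).det = (gram w a).det := by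
  set M : Matrix (Fin n) (Fin n) ℝ := fun i j => Q (EuclideanSpace.single j 1) i with hM
  have hQ : ∀ x : E n, ⇑(Q x) = M *ᵥ ⇑x := by
    intro x
    have hx : x = ∑ j, x j • EuclideanSpace.single j (1 : ℝ) := by
      ext i
      simp [Pi.single_apply]
    funext i
    conv_lhs => rw [hx]
    simp [map_sum, Matrix.mulVec, dotProduct, M, mul_comm]
  have hMM : Mᵀ * M = 1 := by
    ext j l
    have h := Q.inner_map_map (EuclideanSpace.single j (1 : ℝ)) (EuclideanSpace.single l 1)
    rw [PiLp.inner_apply] at h
    simp only [RCLike.inner_apply, conj_trivial] at h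
    rw [Matrix.mul_apply, Matrix.one_apply]
    calc ∑ i, Mᵀ j i * M i l
        = ∑ i, Q (EuclideanSpace.single l 1) i * Q (EuclideanSpace.single j 1) i :=
          Finset.sum_congr rfl fun i _ => mul_comm _ _
      _ = if j = l then 1 else 0 := by
          rw [h]
          simp [EuclideanSpace.inner_single_left]
  have hg : (gram w fun i => Q (a i)) = M * gram w a * Mᵀ := by
    simp only [gram, Finset.mul_sum, Finset.sum_mul, hQ, Matrix.mul_smul, Matrix.smul_mul,
      Matrix.mul_vecMulVec, Matrix.vecMulVec_mul, Matrix.vecMul_transpose]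
  have hd : M.det * M.det = 1 := by
    have := congrArg Matrix.det hMM
    rwa [Matrix.det_mul, Matrix.det_transpose, Matrix.det_one] at this
  rw [hg, Matrix.det_mul, Matrix.det_mul, Matrix.det_transpose]
  linear_combination (gram w a).det * hd

/-- Adding a multiple of the first unit matrix raises the determinant by that multiple of the
first minor. -/
theorem det_add_corner {k : ℕ} (M : Matrix (Fin (k + 1)) (Fin (k + 1)) ℝ) (c : ℝ) :
    (M + c • vecMulVec (Pi.single (0 : Fin (k + 1)) (1 : ℝ)) (Pi.single 0 1)).det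
      = M.det + c * (M.submatrix Fin.succ Fin.succ).det := by
  have h : M + c • vecMulVec (Pi.single (0 : Fin (k + 1)) (1 : ℝ)) (Pi.single 0 1)
      = M.updateRow 0 (M 0 + c • Pi.single 0 1) := by
    ext i j
    refine Fin.cases ?_ (fun i => ?_) i
    · simp [vecMulVec_apply]
    · simp [vecMulVec_apply, Fin.succ_ne_zero]
  rw [h, det_updateRow_add, det_updateRow_smul, updateRow_eq_self]
  congr 2
  rw [det_succ_row_zero, Finset.sum_eq_single (0 : Fin (k + 1))]
  · simp only [Fin.val_zero, pow_zero, one_mul, updateRow_self, Pi.single_eq_same]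
    congr 1
  · intro j _ hj
    simp [hj]
  · simp

theorem gram_submatrix {k m : ℕ} (w : Fin m → ℝ) (a : Fin m → E (k + 1)) :
    (gram w a).submatrix Fin.succ Fin.succ = gram w (fun i => tail k (a i)) := by
  ext i j
  simp [gram, Matrix.sum_apply, vecMulVec_apply, tail_apply]

/-- Sweeping a compact set along the first coordinate over a length `L` adds at least `L` times
its shadow. -/
theorem sweep {Y : Type*} [TopologicalSpace Y] [T2Space Y] [MeasurableSpace Y]
    [OpensMeasurableSpace Y] [SecondCountableTopology Y] (μ : Measure Y) [SFinite μ]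
    {S S' : Set (ℝ × Y)} (hS : IsCompact S) (hS' : MeasurableSet S') {L : ℝ} (hL : 0 ≤ L)
    (h : ∀ p ∈ S, ∀ t ∈ Icc 0 L, (p.1 + t, p.2) ∈ S') :
    (volume.prod μ) S + ENNReal.ofReal L * μ (Prod.snd '' S) ≤ (volume.prod μ) S' := by
  have hP : MeasurableSet (Prod.snd '' S) := (hS.image continuous_snd).isClosed.measurableSet
  rw [Measure.prod_apply_symm hS.isClosed.measurableSet, Measure.prod_apply_symm hS',
    ← lintegral_indicator_const hP, ← lintegral_add_right _ (measurable_const.indicator hP)]
  refine lintegral_mono fun y => ?_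
  by_cases hy : y ∈ Prod.snd '' S
  · set F : Set ℝ := (fun x => (x, y)) ⁻¹' S with hF
    rw [indicator_of_mem hy]
    obtain ⟨⟨x₀, y₀⟩, hx₀, rfl⟩ := hy
    have hFc : IsCompact F :=
      (hS.image continuous_fst).of_isClosed_subset
        (hS.isClosed.preimage (continuous_id.prodMk continuous_const))
        fun x hx => ⟨(x, y₀), hx, rfl⟩
    obtain ⟨b, hb, hbmax⟩ := hFc.exists_isGreatest ⟨x₀, hx₀⟩
    have hd : Disjoint F (Ioc b (b + L)) :=
      Set.disjoint_left.2 fun x hx hx' => (not_lt.2 (hbmax hx)) hx'.1
    have hsub : F ∪ Ioc b (b + L) ⊆ (fun x => (x, y₀)) ⁻¹' S' := by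
      rintro x (hx | hx)
      · simpa using h _ hx 0 ⟨le_rfl, hL⟩
      · have h2 := h _ hb (x - b) ⟨by linarith [hx.1], by linarith [hx.2]⟩
        simpa using h2
    refine le_trans (le_of_eq ?_) (measure_mono hsub)
    rw [measure_union hd measurableSet_Ioc, Real.volume_Ioc, add_sub_cancel_left]
  · rw [indicator_of_notMem hy, add_zero]
    exact measure_mono fun x hx => (hy ⟨_, hx, rfl⟩).elim

/-- Split off the first coordinate. -/
def split (k : ℕ) : E (k + 1) ≃ᵐ ℝ × (Fin k → ℝ) :=
  (MeasurableEquiv.toLp 2 (Fin (k + 1) → ℝ)).symm.trans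
    (MeasurableEquiv.piFinSuccAbove (fun _ => ℝ) 0)

theorem split_fst {k : ℕ} (x : E (k + 1)) : (split k x).1 = x 0 := rfl

theorem split_snd {k : ℕ} (x : E (k + 1)) : (split k x).2 = ⇑(tail k x) := by
  funext j
  simp [split, tail_apply, MeasurableEquiv.piFinSuccAbove, Fin.tail]

theorem split_preserving (k : ℕ) :
    MeasurePreserving (split k) volume (volume.prod volume) :=
  (EuclideanSpace.volume_preserving_symm_measurableEquiv_toLp (Fin (k + 1))).trans
    (volume_preserving_piFinSuccAbove (fun _ : Fin (k + 1) => ℝ) 0)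

/-- A segment along the first axis adds its length times the shadow. -/
theorem volume_add_axis {k : ℕ} {Z Z' : Set (E (k + 1))} (hZ : IsCompact Z) (hZ' : IsCompact Z')
    {L : ℝ} (hL : 0 ≤ L)
    (h : ∀ z ∈ Z, ∀ t ∈ Icc (0 : ℝ) 1, z + t • (L • EuclideanSpace.single 0 1) ∈ Z') :
    volume Z + ENNReal.ofReal L * volume (tail k '' Z) ≤ volume Z' := by
  have hv := split_preserving k
  have hvol : ∀ A : Set (E (k + 1)), MeasurableSet A →
      (volume.prod volume) (split k '' A) = volume A := by
    intro A hA
    rw [← hv.measure_preimage ((split k).measurableSet_image.2 hA).nullMeasurableSet,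
      (split k).injective.preimage_image]
  have hc : Continuous (fun x : E (k + 1) => (x 0, ⇑(tail k x))) := by
    refine Continuous.prodMk ?_ ?_
    · fun_prop
    · refine continuous_pi fun j => ?_
      simp only [tail_apply]
      fun_prop
  have he : ⇑(split k) = fun x => (x 0, ⇑(tail k x)) :=
    funext fun x => Prod.ext (split_fst x) (split_snd x)
  have hS : IsCompact (split k '' Z) := by rw [he]; exact hZ.image hc
  have hS' : IsCompact (split k '' Z') := by rw [he]; exact hZ'.image hc
  have hshadow : volume (Prod.snd '' (split k '' Z)) = volume (tail k '' Z) := by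
    have hp := EuclideanSpace.volume_preserving_symm_measurableEquiv_toLp (Fin k)
    rw [← hp.measure_preimage (hS.image continuous_snd).isClosed.measurableSet.nullMeasurableSet]
    congr 1
    ext u
    simp only [he, Set.image_image, Set.mem_preimage, Set.mem_image]
    constructor
    · rintro ⟨z, hz, hu⟩
      exact ⟨z, hz, (MeasurableEquiv.toLp 2 (Fin k → ℝ)).symm.injective hu⟩
    · rintro ⟨z, hz, rfl⟩
      exact ⟨z, hz, rfl⟩
  rw [← hvol Z hZ.isClosed.measurableSet, ← hvol Z' hZ'.isClosed.measurableSet, ← hshadow]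
  refine sweep volume hS hS'.isClosed.measurableSet hL ?_
  rintro p ⟨z, hz, rfl⟩ t ht
  rcases hL.eq_or_lt with rfl | hLp
  · have ht0 : t = 0 := le_antisymm ht.2 ht.1
    refine ⟨z, ?_, ?_⟩
    · simpa using h z hz 0 ⟨le_rfl, zero_le_one⟩
    · simp [ht0]
  · refine ⟨_, h z hz (t / L) ⟨div_nonneg ht.1 hLp.le, (div_le_one hLp).2 ht.2⟩, ?_⟩
    rw [he]
    refine Prod.ext ?_ ?_
    · simp [hLp.ne']
    · funext j
      simp [tail_apply, Fin.succ_ne_zero]

theorem aux : ∀ (n m : ℕ) (w : Fin m → ℝ) (a : Fin m → E n),
    (∀ i, 0 ≤ w i) → (∀ i, w i * ‖a i‖ ≤ 1) →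
    ENNReal.ofReal (gram w a).det ≤ volume (zono a) := by
  intro n
  induction n with
  | zero =>
    intro m w a _ _
    rw [gram_zero_dim, volume_zono_zero_dim, ENNReal.ofReal_one]
  | succ k ihk =>
    intro m
    induction m with
    | zero =>
      intro w a _ _
      have h : gram w a = 0 := by simp [gram]
      rw [h, Matrix.det_zero, ENNReal.ofReal_zero]
      exact zero_le
    | succ m ihm =>
      intro w a hw hwa
      by_cases hA : a 0 = 0
      · have hg : gram w a = gram (fun i : Fin m => w i.succ) (fun i : Fin m => a i.succ) := by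
          rw [gram_succ]; simp [hA]
        rw [hg]
        refine (ihm _ _ (fun i : Fin m => hw i.succ) fun i : Fin m => hwa i.succ).trans
          (measure_mono ?_)
        intro z hz
        simpa using add_smul_mem_zono a hz (t := 0) ⟨le_rfl, zero_le_one⟩
      set T : E (k + 1) := ‖a 0‖ • EuclideanSpace.single 0 (1 : ℝ) with hT
      have hnorm : ‖a 0‖ = ‖T‖ := by simp [T, norm_smul]
      set Q : E (k + 1) ≃ₗᵢ[ℝ] E (k + 1) := (ℝ ∙ (a 0 - T))ᗮ.reflection with hQdef
      have hQ : Q (a 0) = T := Submodule.reflection_sub hnorm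
      set b : Fin (m + 1) → E (k + 1) := fun i => Q (a i) with hb
      have hvolQ : volume (zono b) = volume (zono a) := by
        have hz : zono b = Q '' zono a := zono_map Q.toLinearEquiv.toLinearMap a
        rw [hz, ← Q.measurePreserving.measure_preimage
          ((isCompact_zono a).image Q.continuous).isClosed.measurableSet.nullMeasurableSet,
          Q.injective.preimage_image]
      rw [← hvolQ, ← gram_conj Q w a]
      have hwb : ∀ i, w i * ‖b i‖ ≤ 1 := fun i => by simpa [b] using hwa i
      have h1 := ihm (fun i : Fin m => w i.succ) (fun i : Fin m => b i.succ) (fun i => hw i.succ)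
        fun i : Fin m => hwb i.succ
      have h2 := ihk m (fun i : Fin m => w i.succ) (fun i : Fin m => tail k (b i.succ))
        (fun i => hw i.succ)
        fun i : Fin m => (mul_le_mul_of_nonneg_left (norm_tail_le _) (hw i.succ)).trans (hwb i.succ)
      rw [zono_map, ← gram_submatrix] at h2
      have hb0 : (⇑(b 0) : Fin (k + 1) → ℝ) = ‖a 0‖ • Pi.single (0 : Fin (k + 1)) (1 : ℝ) := by
        funext j
        simp [b, hQ, T, Pi.single_apply]
      have hdet : (gram w b).det = (gram (fun i : Fin m => w i.succ) fun i : Fin m => b i.succ).det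
          + w 0 * ‖a 0‖ ^ 2 * ((gram (fun i : Fin m => w i.succ)
              fun i : Fin m => b i.succ).submatrix Fin.succ Fin.succ).det := by
        rw [gram_succ w b, hb0, ← det_add_corner]
        congr 2
        simp [smul_vecMulVec, vecMulVec_smul, smul_smul, sq]
      have h3 : volume (zono fun i : Fin m => b i.succ)
          + ENNReal.ofReal ‖a 0‖ * volume (tail k '' zono fun i : Fin m => b i.succ)
          ≤ volume (zono b) :=
        volume_add_axis (isCompact_zono _) (isCompact_zono _) (norm_nonneg _) fun z hz t ht => by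
          have h4 := add_smul_mem_zono b hz ht
          simpa [b, hQ, T] using h4
      refine le_trans ?_ h3
      change ENNReal.ofReal (gram w b).det ≤ _
      rw [hdet]
      refine ENNReal.ofReal_add_le.trans (add_le_add h1 ?_)
      rw [ENNReal.ofReal_mul (mul_nonneg (hw 0) (sq_nonneg _))]
      refine mul_le_mul' (ENNReal.ofReal_le_ofReal ?_) h2
      have := mul_le_mul_of_nonneg_right (hwa 0) (norm_nonneg (a 0))
      nlinarith

end Vale.Agent.P237.ZonoAux

namespace Vale.Agent.P237

/-- The zonotope bound of the pins. -/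
theorem zonoDet : ZonoDet := ZonoAux.aux

end Vale.Agent.P237
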