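import Vale.Agent.P237.Pins
import Vale.Agent.P254.SquareBM

/-! P237: the first inequality of Minkowski for a polytope, through its facet cones. -/

noncomputable section

open MeasureTheory Set Filter Topology
open scoped RealInnerProductSpace ENNReal Pointwise

namespace Vale.Agent.P237

private lemma pow_succ_lower {x y : ℝ} (hx : 0 ≤ x) (hy : 0 ≤ y) : ∀ m : ℕ,
    x ^ (m + 1) + (m + 1) * x ^ m * y ≤ (x + y) ^ (m + 1)
  | 0 => by simp
  | m + 1 => by
    have h := mul_le_mul_of_nonneg_right (pow_succ_lower hx hy m) (add_nonneg hx hy)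
    have h' : 0 ≤ (m + 1 : ℝ) * x ^ m * y * y := by positivity
    rw [← pow_succ] at h
    push_cast
    linarith [show (x ^ (m + 1) + (m + 1 : ℝ) * x ^ m * y) * (x + y) =
      x ^ (m + 1 + 1) + (m + 1 + 1 : ℝ) * x ^ (m + 1) * y + (m + 1 : ℝ) * x ^ m * y * y by ring]

private lemma pow_succ_upper {y : ℝ} (hy : 0 ≤ y) : ∀ m : ℕ,
    (1 + y) ^ (m + 1) ≤ 1 + (m + 1) * y * (1 + y) ^ m
  | 0 => by simp
  | m + 1 => by
    have h := mul_le_mul_of_nonneg_right (pow_succ_upper hy m) (add_nonneg zero_le_one hy)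
    have h' : y * 1 ≤ y * (1 + y) ^ (m + 1) :=
      mul_le_mul_of_nonneg_left (one_le_pow₀ (by linarith)) hy
    rw [← pow_succ] at h
    push_cast
    linarith [show (1 + (m + 1 : ℝ) * y * (1 + y) ^ m) * (1 + y) =
      1 + y + (m + 1 : ℝ) * y * (1 + y) ^ (m + 1) by ring]

private lemma isClosed_Poly {n : ℕ} {ι : Type*} (v : ι → E n) (c : ι → ℝ) :
    IsClosed (Poly v c) := by
  simp only [Poly, ← mem_Iic, ofPred_forall]
  exact isClosed_iInter fun i => isClosed_Iic.preimage (by fun_prop)

private lemma convex_Poly {n : ℕ} {ι : Type*} (v : ι → E n) (c : ι → ℝ) :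
    Convex ℝ (Poly v c) := by
  intro x hx y hy s t hs ht hst i
  rw [inner_add_right, real_inner_smul_right, real_inner_smul_right]
  calc s * ⟪v i, x⟫ + t * ⟪v i, y⟫ ≤ s * c i + t * c i :=
        add_le_add (mul_le_mul_of_nonneg_left (hx i) hs) (mul_le_mul_of_nonneg_left (hy i) ht)
    _ = c i := by rw [← add_mul, hst, one_mul]

private lemma cone_subset {n : ℕ} {ι : Type*} (v : ι → E n) (i : ι) :
    cone v i ⊆ Poly v fun _ => 1 := fun _ hx j => (hx.2 j).trans hx.1

private lemma isClosed_cone {n : ℕ} {ι : Type*} (v : ι → E n) (i : ι) : IsClosed (cone v i) := by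
  simp only [cone, ofPred_and, ofPred_forall]
  exact (isClosed_le (by fun_prop) continuous_const).inter
    (isClosed_iInter fun j => isClosed_le (by fun_prop) (by fun_prop))

private lemma Poly_subset_iUnion_cone {n N : ℕ} (v : Fin N → E n) {c : Fin N → ℝ}
    (hN : 0 < N) (hc : ∀ i, 0 < c i) : Poly v c ⊆ ⋃ i, c i • cone v i := by
  intro x hx
  have : Nonempty (Fin N) := ⟨⟨0, hN⟩⟩
  obtain ⟨i, hi⟩ := Finite.exists_max fun j => ⟪v j, x⟫
  refine mem_iUnion.2 ⟨i, ?_⟩
  rw [mem_smul_set_iff_inv_smul_mem₀ (hc i).ne']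
  refine ⟨?_, fun j => ?_⟩
  · rw [real_inner_smul_right, inv_mul_le_one₀ (hc i)]
    exact hx i
  · rw [real_inner_smul_right, real_inner_smul_right]
    exact mul_le_mul_of_nonneg_left (hi j) (inv_nonneg.2 (hc i).le)

private lemma sum_coneVol_le {n N : ℕ} {v : Fin N → E n} (hv : Function.Injective v)
    (hb : Bornology.IsBounded (Poly v fun _ => 1)) :
    ∑ i, coneVol v i ≤ (volume (Poly v fun _ => 1)).toReal := by
  have hd : Pairwise (Function.onFun (AEDisjoint volume) (cone v)) := by
    intro i j hij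
    have hne : (innerSL ℝ (v i - v j)).toLinearMap.ker ≠ ⊤ := by
      intro h
      have h0 : v i - v j ∈ (innerSL ℝ (v i - v j)).toLinearMap.ker := by rw [h]; trivial
      rw [LinearMap.mem_ker, ContinuousLinearMap.coe_coe, innerSL_apply_apply, inner_self_eq_zero,
        sub_eq_zero] at h0
      exact hij (hv h0)
    refine measure_mono_null (fun x hx => ?_) (Measure.addHaar_submodule volume _ hne)
    rw [SetLike.mem_coe, LinearMap.mem_ker, ContinuousLinearMap.coe_coe, innerSL_apply_apply,
      inner_sub_left, sub_eq_zero]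
    exact le_antisymm (hx.2.2 i) (hx.1.2 j)
  have hfin : ∀ i, volume (cone v i) ≠ ⊤ := fun i =>
    (hb.subset (cone_subset v i)).measure_lt_top.ne
  have h := measure_iUnion₀ hd fun i => (isClosed_cone v i).measurableSet.nullMeasurableSet
  rw [tsum_fintype] at h
  simp only [coneVol, ← ENNReal.toReal_sum fun i _ => hfin i, ← h]
  exact ENNReal.toReal_mono hb.measure_lt_top.ne (measure_mono (iUnion_subset (cone_subset v)))

private lemma volume_Poly_le {n N : ℕ} (v : Fin N → E n) {c : Fin N → ℝ}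
    (hb : Bornology.IsBounded (Poly v fun _ => 1)) (hN : 0 < N) (hc : ∀ i, 0 < c i) :
    (volume (Poly v c)).toReal ≤ ∑ i, c i ^ n * coneVol v i := by
  have hfin : ∀ i, volume (c i • cone v i) ≠ ⊤ := fun i =>
    ((hb.subset (cone_subset v i)).smul₀ (c i)).measure_lt_top.ne
  have h : volume (Poly v c) ≤ ∑ i, volume (c i • cone v i) :=
    (measure_mono (Poly_subset_iUnion_cone v hN hc)).trans (measure_iUnion_fintype_le _ _)
  refine (ENNReal.toReal_mono (ENNReal.sum_ne_top.2 fun i _ => hfin i) h).trans (le_of_eq ?_)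
  rw [ENNReal.toReal_sum fun i _ => hfin i]
  refine Finset.sum_congr rfl fun i _ => ?_
  rw [Measure.addHaar_smul_of_nonneg volume (hc i).le, finrank_euclideanSpace_fin,
    ENNReal.toReal_mul, ENNReal.toReal_ofReal (pow_nonneg (hc i).le n), coneVol]

theorem minkowskiFirst : MinkowskiFirst := by
  intro n N v r L hn hv hb hr hL hLc hL0 hsub
  set k := (volume (Poly v fun _ => 1)).toReal with hk
  have hcnn : ∀ i, 0 ≤ coneVol v i := fun i => ENNReal.toReal_nonneg
  rcases eq_or_lt_of_le (ENNReal.toReal_nonneg : 0 ≤ (volume L).toReal) with hl | hl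
  · rw [← hl, zero_mul]
    exact pow_nonneg (Finset.sum_nonneg fun i _ => mul_nonneg (hcnn i) (hr i)) n
  obtain ⟨m, rfl⟩ : ∃ m, n = m + 1 := ⟨n - 1, by omega⟩
  have hN : 0 < N := by
    rcases Nat.eq_zero_or_pos N with rfl | h
    · refine absurd (hb.subset (s := univ) fun x _ i => i.elim0) ?_
      exact NormedSpace.unbounded_univ ℝ (E (m + 1))
    · exact h
  have hKc : IsCompact (Poly v fun _ => (1 : ℝ)) :=
    Metric.isCompact_of_isClosed_isBounded (isClosed_Poly v _) hb
  have hk0 : 0 < k := by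
    refine ENNReal.toReal_pos ?_ hKc.measure_lt_top.ne
    have hopen : IsOpen {x : E (m + 1) | ∀ i, ⟪v i, x⟫ < 1} := by
      simp only [ofPred_forall]
      exact isOpen_iInter_of_finite fun i => isOpen_lt (by fun_prop) continuous_const
    exact ((hopen.measure_pos volume ⟨0, fun i => by simp⟩).trans_le
      (measure_mono fun x hx i => (hx i).le)).ne'
  have hS : ∑ i, coneVol v i = k := by
    refine le_antisymm (sum_coneVol_le hv hb) ?_
    simpa using volume_Poly_le v (c := fun _ => 1) hb hN fun _ => one_pos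
  set a := k ^ (((m + 1 : ℕ) : ℝ)⁻¹) with ha
  set b := (volume L).toReal ^ (((m + 1 : ℕ) : ℝ)⁻¹) with hbd
  have han : a ^ (m + 1) = k := Real.rpow_inv_natCast_pow hk0.le (by omega)
  have hbn : b ^ (m + 1) = (volume L).toReal := Real.rpow_inv_natCast_pow hl.le (by omega)
  have hpre : ∀ {S : Set (E (m + 1))}, IsCompact S →
      IsCompact (WithLp.toLp 2 ⁻¹' S : Set (Fin (m + 1) → ℝ)) ∧
      (volume (WithLp.toLp 2 ⁻¹' S : Set (Fin (m + 1) → ℝ))).toReal = (volume S).toReal :=
    fun {S} hS => by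
      refine ⟨?_, by rw [(PiLp.volume_preserving_toLp _).measure_preimage
        hS.measurableSet.nullMeasurableSet]⟩
      exact (PiLp.homeomorph 2 _).symm.isCompact_preimage.2 hS
  have hbm : ∀ t : ℝ, 0 < t → (a + t * b) ^ (m + 1) ≤
      ∑ i, (1 + t * r i) ^ (m + 1) * coneVol v i := by
    intro t ht
    have h1t : 0 < 1 + t := by linarith
    set c : Fin N → ℝ := fun i => (1 + t * r i) / (1 + t) with hc
    have hcp : ∀ i, 0 < c i := fun i => by
      have := hr i
      positivity
    have hCc : IsCompact (Poly v c) :=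
      (isCompact_iUnion fun i => (hKc.of_isClosed_subset (isClosed_cone v i)
        (cone_subset v i)).smul (c i)).of_isClosed_subset (isClosed_Poly v c)
        (Poly_subset_iUnion_cone v hN hcp)
    have hlin : ∀ {S : Set (E (m + 1))}, Convex ℝ S →
        Convex ℝ (WithLp.toLp 2 ⁻¹' S : Set (Fin (m + 1) → ℝ)) := fun {S} hS =>
      hS.linear_preimage (WithLp.linearEquiv 2 ℝ (Fin (m + 1) → ℝ)).symm.toLinearMap
    have h := P254.brunn_minkowski (a := a) (b := b) (hpre hKc).1 (hpre hL).1 (hpre hCc).1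
      (hlin (convex_Poly v _)) (hlin hLc) (by intro i; simp) (by simpa using hL0)
      (Real.rpow_pos_of_pos hk0 _) (Real.rpow_pos_of_pos hl _)
      (by rw [(hpre hKc).2, han]) (by rw [(hpre hL).2, hbn])
      (l := 1 / (1 + t)) (μ := t / (1 + t)) (by positivity) (by positivity) (by field_simp)
      (fun z hz w hw i => by
        simp only [WithLp.toLp_add, WithLp.toLp_smul, inner_add_right,
          real_inner_smul_right]
        calc 1 / (1 + t) * ⟪v i, WithLp.toLp 2 z⟫ + t / (1 + t) * ⟪v i, WithLp.toLp 2 w⟫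
            ≤ 1 / (1 + t) * 1 + t / (1 + t) * r i :=
              add_le_add (mul_le_mul_of_nonneg_left (hz i) (by positivity))
                (mul_le_mul_of_nonneg_left (hsub hw i) (by positivity))
          _ = c i := by rw [hc]; field_simp)
    rw [(hpre hCc).2] at h
    have h2 := mul_le_mul_of_nonneg_left (h.trans (volume_Poly_le v hb hN hcp))
      (pow_nonneg h1t.le (m + 1))
    rw [← mul_pow, Finset.mul_sum] at h2
    refine le_trans (le_of_eq ?_) (h2.trans (le_of_eq (Finset.sum_congr rfl fun i _ => ?_)))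
    · congr 1
      field_simp
    · rw [← mul_assoc, ← mul_pow, hc]
      congr 2
      field_simp
  have hfirst : ∀ t : ℝ, 0 < t → a ^ m * b ≤ ∑ i, coneVol v i * r i * (1 + t * r i) ^ m := by
    intro t ht
    have h1 := pow_succ_lower (Real.rpow_nonneg hk0.le _ : 0 ≤ a)
      (mul_nonneg ht.le (Real.rpow_nonneg hl.le _ : 0 ≤ b)) m
    have h2 : ∑ i, (1 + t * r i) ^ (m + 1) * coneVol v i ≤
        k + (m + 1) * t * ∑ i, coneVol v i * r i * (1 + t * r i) ^ m := by
      rw [← hS, Finset.mul_sum, ← Finset.sum_add_distrib]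
      refine Finset.sum_le_sum fun i _ => ?_
      have := mul_le_mul_of_nonneg_right (pow_succ_upper (mul_nonneg ht.le (hr i)) m) (hcnn i)
      linarith
    refine le_of_mul_le_mul_left ?_ (show (0 : ℝ) < (m + 1) * t by positivity)
    rw [han] at h1
    linarith [hbm t ht]
  have hlim : a ^ m * b ≤ ∑ i, coneVol v i * r i := by
    have hcont : Continuous fun t : ℝ => ∑ i, coneVol v i * r i * (1 + t * r i) ^ m := by fun_prop
    have := ge_of_tendsto ((hcont.tendsto 0).mono_left (nhdsWithin_le_nhds (s := Ioi 0)))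
      (eventually_nhdsWithin_of_forall fun t ht => hfirst t ht)
    simpa using this
  refine le_trans (le_of_eq ?_) (pow_le_pow_left₀
    (mul_nonneg (pow_nonneg (Real.rpow_nonneg hk0.le _) m) (Real.rpow_nonneg hl.le _)) hlim (m + 1))
  rw [mul_pow, ← pow_mul, mul_comm m, pow_mul, han, hbn, mul_comm, Nat.add_sub_cancel]

end Vale.Agent.P237
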