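import Vale.Agent.P237.Pins

/-!
P237: the prisms over the facets seen from a direction lie in what the segment adds, and the
prism over the facet with normal `v i` has volume `n ⟪v i, e⟫` times the facet cone.
-/

noncomputable section

open MeasureTheory Set Pointwise
open scoped RealInnerProductSpace ENNReal

namespace Vale.Agent.P237

namespace Prism

variable {n N : ℕ}

/-- The facet cone without its boundary towards the other cones. -/
def ocone (v : Fin N → E n) (i : Fin N) : Set (E n) :=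
  {x | ⟪v i, x⟫ ∈ Ioc (0 : ℝ) 1 ∧ ∀ j, j ≠ i → ⟪v j, x⟫ < ⟪v i, x⟫}

/-- The half-open prism over the relatively open facet with normal `v i` along `e`. -/
def prism (v : Fin N → E n) (e : E n) (i : Fin N) : Set (E n) :=
  {x | ⟪v i, x⟫ ∈ Ioc (1 : ℝ) (1 + ⟪v i, e⟫) ∧
    ∀ j, j ≠ i → ⟪v j, x - ((⟪v i, x⟫ - 1) / ⟪v i, e⟫) • e⟫ < 1}

lemma measurableSet_ocone (v : Fin N → E n) (i : Fin N) : MeasurableSet (ocone v i) := by
  have h : ocone v i = (fun x => ⟪v i, x⟫) ⁻¹' Ioc (0 : ℝ) 1 ∩
      ⋂ j, {x | j ≠ i → ⟪v j, x⟫ < ⟪v i, x⟫} := by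
    ext x; simp [ocone]
  rw [h]
  refine (measurableSet_Ioc.preimage (by fun_prop)).inter (MeasurableSet.iInter fun j => ?_)
  by_cases hj : j = i
  · simp [hj]
  · simp only [ne_eq, hj, not_false_eq_true, forall_const]
    exact measurableSet_lt (by fun_prop) (by fun_prop)

lemma measurableSet_prism (v : Fin N → E n) (e : E n) (i : Fin N) :
    MeasurableSet (prism v e i) := by
  have h : prism v e i = (fun x => ⟪v i, x⟫) ⁻¹' Ioc (1 : ℝ) (1 + ⟪v i, e⟫) ∩
      ⋂ j, {x | j ≠ i → ⟪v j, x - ((⟪v i, x⟫ - 1) / ⟪v i, e⟫) • e⟫ < 1} := by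
    ext x; simp [prism]
  rw [h]
  refine (measurableSet_Ioc.preimage (by fun_prop)).inter (MeasurableSet.iInter fun j => ?_)
  by_cases hj : j = i
  · simp [hj]
  · simp only [ne_eq, hj, not_false_eq_true, forall_const]
    exact measurableSet_lt (by fun_prop) (by fun_prop)

/-- The prism has `n ⟪v i, e⟫` times the volume of the open facet cone. -/
lemma volume_prism (hn : 0 < n) (v : Fin N → E n) (e : E n) (i : Fin N) (hs : 0 < ⟪v i, e⟫) :
    volume (prism v e i) = ENNReal.ofReal ((n : ℝ) * ⟪v i, e⟫) * volume (ocone v i) := by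
  set a := v i with ha
  set s := ⟪a, e⟫ with hsd
  have hane : a ≠ 0 := by rintro h; rw [hsd, h, inner_zero_left] at hs; exact lt_irrefl _ hs
  have haa : ⟪a, a⟫ ≠ 0 := inner_self_ne_zero.2 hane
  set W : Submodule ℝ (E n) := (ℝ ∙ a)ᗮ with hW
  set p : E n := (⟪a, a⟫)⁻¹ • a with hp
  have hap : ⟪a, p⟫ = 1 := by rw [hp, real_inner_smul_right, inv_mul_cancel₀ haa]
  have haw : ∀ w : W, ⟪a, (w : E n)⟫ = 0 := fun w =>
    Submodule.mem_orthogonal_singleton_iff_inner_right.1 w.2
  let Φ : (ℝ × W) ≃ₗ[ℝ] E n :=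
    { toFun := fun q => q.1 • p + (q.2 : E n)
      map_add' := fun q r => by simp [add_smul]; abel
      map_smul' := fun c q => by simp [mul_smul]
      invFun := fun x => (⟪a, x⟫, ⟨x - ⟪a, x⟫ • p, by
        rw [hW, Submodule.mem_orthogonal_singleton_iff_inner_right, inner_sub_right,
          real_inner_smul_right, hap, mul_one, sub_self]⟩)
      left_inv := fun q => by
        have h1 : ⟪a, q.1 • p + (q.2 : E n)⟫ = q.1 := by
          rw [inner_add_right, real_inner_smul_right, hap, haw, mul_one, add_zero]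
        refine Prod.ext h1 (Subtype.ext ?_)
        simp only [h1, add_sub_cancel_left]
      right_inv := fun x => by simp }
  have hΦ : ∀ q : ℝ × W, Φ q = q.1 • p + (q.2 : E n) := fun q => rfl
  have hΦa : ∀ q : ℝ × W, ⟪a, Φ q⟫ = q.1 := fun q => by
    rw [hΦ, inner_add_right, real_inner_smul_right, hap, haw, mul_one, add_zero]
  let Φc := Φ.toContinuousLinearEquiv
  set μW : Measure W := volume with hμW
  set μ : Measure (ℝ × W) := (volume : Measure ℝ).prod μW with hμ
  have : Measure.IsAddHaarMeasure μ := by rw [hμ]; infer_instance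
  have : Measure.IsAddHaarMeasure (Measure.map Φc μ) := Φc.isAddHaarMeasure_map μ
  obtain ⟨c, hc⟩ : ∃ c : NNReal, (volume : Measure (E n)) = c • Measure.map Φc μ :=
    ⟨_, Measure.isAddLeftInvariant_eq_smul _ _⟩
  have hvol : ∀ S : Set (E n), MeasurableSet S → volume S = c * μ (Φc ⁻¹' S) := by
    intro S hS
    rw [hc, Measure.smul_apply, Measure.map_apply Φc.continuous.measurable hS]
    rfl
  set G : Set W := {w | ∀ j, j ≠ i → ⟪v j, p + (w : E n)⟫ < 1} with hG
  have hfW : Module.finrank ℝ W = n - 1 := by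
    have h1 := Submodule.finrank_add_finrank_orthogonal (ℝ ∙ a)
    rw [finrank_span_singleton hane, finrank_euclideanSpace_fin] at h1
    rw [hW]
    omega
  -- the cone in coordinates
  have hC : μ (Φc ⁻¹' ocone v i) = ENNReal.ofReal ((n : ℝ)⁻¹) * μW G := by
    have hmeas : MeasurableSet (Φc ⁻¹' ocone v i) :=
      (measurableSet_ocone v i).preimage Φc.continuous.measurable
    rw [hμ, Measure.prod_apply hmeas]
    have hfib : ∀ t : ℝ, μW (Prod.mk t ⁻¹' (Φc ⁻¹' ocone v i))
        = (Ioc (0 : ℝ) 1).indicator (fun t => ENNReal.ofReal (t ^ (n - 1)) * μW G) t := by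
      intro t
      by_cases ht : t ∈ Ioc (0 : ℝ) 1
      · have ht0 : t ≠ 0 := ht.1.ne'
        have e1 : Prod.mk t ⁻¹' (Φc ⁻¹' ocone v i) = t • G := by
          ext w
          rw [mem_smul_set_iff_inv_smul_mem₀ ht0]
          simp only [mem_preimage, ocone, hG, mem_ofPred_eq]
          show (⟪a, Φ (t, w)⟫ ∈ Ioc (0 : ℝ) 1 ∧ ∀ j, j ≠ i → ⟪v j, Φ (t, w)⟫ < ⟪a, Φ (t, w)⟫) ↔ _
          rw [hΦa]
          have key : ∀ j, ⟪v j, Φ (t, w)⟫ = t * ⟪v j, p + ((t⁻¹ • w : W) : E n)⟫ := by
            intro j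
            rw [← real_inner_smul_right, smul_add, Submodule.coe_smul, smul_inv_smul₀ ht0, hΦ]
          simp only [key, ht, true_and]
          refine forall_congr' fun j => imp_congr_right fun _ => ?_
          exact mul_lt_iff_lt_one_right ht.1
        rw [e1, indicator_of_mem ht, Measure.addHaar_smul_of_nonneg _ ht.1.le, hfW]
      · rw [indicator_of_notMem ht]
        have e1 : Prod.mk t ⁻¹' (Φc ⁻¹' ocone v i) = ∅ := by
          rw [eq_empty_iff_forall_notMem]
          rintro w ⟨h1, -⟩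
          have h2 : ⟪a, Φ (t, w)⟫ ∈ _ := h1
          rw [hΦa] at h2
          exact ht h2
        rw [e1, measure_empty]
    simp only [hfib]
    rw [lintegral_indicator measurableSet_Ioc, lintegral_mul_const _ (by fun_prop)]
    congr 1
    rw [← ofReal_integral_eq_lintegral_ofReal
      ((continuous_pow (n - 1)).integrableOn_Ioc)
      ((ae_restrict_iff' measurableSet_Ioc).2 (Filter.Eventually.of_forall
        fun x hx => pow_nonneg hx.1.le _))]
    rw [← intervalIntegral.integral_of_le zero_le_one, integral_pow, one_pow,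
      zero_pow (by omega), sub_zero, one_div]
    congr 2
    exact_mod_cast (by omega : n - 1 + 1 = n)
  -- the prism in coordinates
  have hP : μ (Φc ⁻¹' prism v e i) = ENNReal.ofReal s * μW G := by
    have hmeas : MeasurableSet (Φc ⁻¹' prism v e i) :=
      (measurableSet_prism v e i).preimage Φc.continuous.measurable
    rw [hμ, Measure.prod_apply hmeas]
    set b : W := (Φ.symm e).2 with hb
    have hbe : (b : E n) = e - s • p := rfl
    have hfib : ∀ t : ℝ, μW (Prod.mk t ⁻¹' (Φc ⁻¹' prism v e i))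
        = (Ioc (1 : ℝ) (1 + s)).indicator (fun _ => μW G) t := by
      intro t
      by_cases ht : t ∈ Ioc (1 : ℝ) (1 + s)
      · have e1 : Prod.mk t ⁻¹' (Φc ⁻¹' prism v e i)
            = (fun w => -(((t - 1) / s) • b) + w) ⁻¹' G := by
          ext w
          simp only [mem_preimage, prism, hG, mem_ofPred_eq]
          show (⟪a, Φ (t, w)⟫ ∈ Ioc (1 : ℝ) (1 + s) ∧
            ∀ j, j ≠ i → ⟪v j, Φ (t, w) - ((⟪a, Φ (t, w)⟫ - 1) / s) • e⟫ < 1) ↔ _
          rw [hΦa]
          simp only [ht, true_and]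
          have key : Φ (t, w) - ((t - 1) / s) • e
              = p + ((-(((t - 1) / s) • b) + w : W) : E n) := by
            rw [hΦ, Submodule.coe_add, Submodule.coe_neg, Submodule.coe_smul, hbe, smul_sub,
              smul_smul ((t - 1) / s) s p, div_mul_cancel₀ _ hs.ne', sub_smul, one_smul]
            abel
          rw [key]
        rw [e1, measure_preimage_add, indicator_of_mem ht]
      · rw [indicator_of_notMem ht]
        have e1 : Prod.mk t ⁻¹' (Φc ⁻¹' prism v e i) = ∅ := by
          rw [eq_empty_iff_forall_notMem]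
          rintro w ⟨h1, -⟩
          have h2 : ⟪a, Φ (t, w)⟫ ∈ _ := h1
          rw [hΦa] at h2
          exact ht h2
        rw [e1, measure_empty]
    simp only [hfib]
    rw [lintegral_indicator measurableSet_Ioc, setLIntegral_const, Real.volume_Ioc, mul_comm]
    congr 2
    ring
  rw [hvol _ (measurableSet_prism v e i), hvol _ (measurableSet_ocone v i), hP, hC]
  rw [ENNReal.ofReal_mul (by positivity)]
  have hnn : ENNReal.ofReal (n : ℝ) * ENNReal.ofReal ((n : ℝ)⁻¹) = 1 := by
    rw [← ENNReal.ofReal_mul (by positivity), mul_inv_cancel₀ (by positivity), ENNReal.ofReal_one]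
  calc (c : ℝ≥0∞) * (ENNReal.ofReal s * μW G)
      = (ENNReal.ofReal (n : ℝ) * ENNReal.ofReal ((n : ℝ)⁻¹))
          * ((c : ℝ≥0∞) * (ENNReal.ofReal s * μW G)) := by rw [hnn, one_mul]
    _ = _ := by ring

lemma cone_subset_poly (v : Fin N → E n) (i : Fin N) : cone v i ⊆ Poly v fun _ => 1 :=
  fun _ hx j => (hx.2 j).trans hx.1

lemma volume_cone_le (hn : 0 < n) (v : Fin N → E n) (hv : Function.Injective v)
    (hb : Bornology.IsBounded (Poly v fun _ => 1)) (i : Fin N) :
    volume (cone v i) ≤ volume (ocone v i) := by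
  have : Nonempty (Fin n) := ⟨⟨0, hn⟩⟩
  set S : Set (E n) := {0} ∪ ⋃ j ∈ {j | j ≠ i}, ((ℝ ∙ (v j - v i))ᗮ : Set (E n)) with hS
  have hsub : cone v i ⊆ ocone v i ∪ S := by
    intro x hx
    by_cases h : ∃ j, j ≠ i ∧ ⟪v j, x⟫ = ⟪v i, x⟫
    · obtain ⟨j, hj, hje⟩ := h
      refine Or.inr (Or.inr (mem_biUnion (show j ∈ {j | j ≠ i} from hj) ?_))
      rw [SetLike.mem_coe, Submodule.mem_orthogonal_singleton_iff_inner_right, inner_sub_left,
        hje, sub_self]
    by_cases hp : 0 < ⟪v i, x⟫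
    · exact Or.inl ⟨⟨hp, hx.1⟩, fun j hj => lt_of_le_of_ne (hx.2 j) fun he => h ⟨j, hj, he⟩⟩
    · refine Or.inr (Or.inl ?_)
      obtain ⟨R, hR⟩ := hb.exists_norm_le
      by_contra hx0
      have hn0 : 0 < ‖x‖ := norm_pos_iff.2 hx0
      set t := (max R 0 + 1) / ‖x‖ with ht
      have ht0 : 0 ≤ t := by positivity
      have hmem : t • x ∈ Poly v fun _ => 1 := fun j => by
        rw [real_inner_smul_right]
        have := mul_nonpos_of_nonneg_of_nonpos ht0 ((hx.2 j).trans (not_lt.1 hp))
        linarith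
      have h2 := hR _ hmem
      rw [norm_smul, Real.norm_eq_abs, abs_of_nonneg ht0, ht, div_mul_cancel₀ _ hn0.ne'] at h2
      linarith [le_max_left R 0]
  have hS0 : volume S = 0 := by
    refine measure_union_null (measure_singleton 0) ((measure_biUnion_null_iff
      (Set.to_countable _)).2 fun j hj => ?_)
    refine Measure.addHaar_submodule _ _ fun htop => ?_
    have hmem : v j - v i ∈ ((ℝ ∙ (v j - v i))ᗮ : Submodule ℝ (E n)) := by
      rw [htop]; exact Submodule.mem_top
    rw [Submodule.mem_orthogonal_singleton_iff_inner_right, inner_self_eq_zero, sub_eq_zero] at hmem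
    exact hj (hv hmem)
  calc volume (cone v i) ≤ volume (ocone v i ∪ S) := measure_mono hsub
    _ ≤ volume (ocone v i) + volume S := measure_union_le _ _
    _ = volume (ocone v i) := by rw [hS0, add_zero]

end Prism

open Prism

theorem prismBound : PrismBound := by
  intro n N v e hn hv hb
  classical
  set U := {x : E n | x ∉ Poly v (fun _ => 1) ∧ ∃ t ∈ Icc (0 : ℝ) 1, x - t • e ∈ Poly v fun _ => 1}
  set I := Finset.univ.filter fun i => 0 < ⟪v i, e⟫ with hI
  have hsub : (⋃ i ∈ I, prism v e i) ⊆ U := by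
    intro x hx
    simp only [mem_iUnion, hI, Finset.mem_filter, Finset.mem_univ, true_and] at hx
    obtain ⟨i, hs, hx1, hx2⟩ := hx
    refine ⟨fun hP => (hP i).not_gt hx1.1, (⟪v i, x⟫ - 1) / ⟪v i, e⟫, ⟨?_, ?_⟩, fun j => ?_⟩
    · exact div_nonneg (by linarith [hx1.1]) hs.le
    · rw [div_le_one hs]; linarith [hx1.2]
    · by_cases hj : j = i
      · subst hj
        rw [inner_sub_right, real_inner_smul_right, div_mul_cancel₀ _ hs.ne']
        simp
      · exact (hx2 j hj).le
  have hdisj : (I : Set (Fin N)).PairwiseDisjoint (prism v e) := by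
    intro i hi k hk hik
    rw [Finset.mem_coe, hI, Finset.mem_filter] at hi hk
    rw [Function.onFun, Set.disjoint_left]
    rintro x ⟨hi1, hi2⟩ ⟨hk1, hk2⟩
    have a1 := hk2 i hik
    have a2 := hi2 k (Ne.symm hik)
    rw [inner_sub_right, real_inner_smul_right] at a1 a2
    set t := (⟪v i, x⟫ - 1) / ⟪v i, e⟫ with ht
    set t' := (⟪v k, x⟫ - 1) / ⟪v k, e⟫ with ht'
    have e1 : t * ⟪v i, e⟫ = ⟪v i, x⟫ - 1 := div_mul_cancel₀ _ hi.2.ne'
    have e2 : t' * ⟪v k, e⟫ = ⟪v k, x⟫ - 1 := div_mul_cancel₀ _ hk.2.ne'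
    have b1 : t * ⟪v i, e⟫ < t' * ⟪v i, e⟫ := by linarith
    have b2 : t' * ⟪v k, e⟫ < t * ⟪v k, e⟫ := by linarith
    exact lt_asymm (lt_of_mul_lt_mul_right b1 hi.2.le) (lt_of_mul_lt_mul_right b2 hk.2.le)
  refine le_trans ?_ (measure_mono hsub)
  simp only [coneVol]
  rw [measure_biUnion_finset hdisj fun i _ => measurableSet_prism v e i,
    ENNReal.ofReal_sum_of_nonneg fun i _ =>
      mul_nonneg (mul_nonneg (by positivity) ENNReal.toReal_nonneg) (le_max_right _ _)]
  rw [← Finset.sum_filter_of_ne (p := fun i => 0 < ⟪v i, e⟫)]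
  · refine Finset.sum_le_sum fun i hi => ?_
    rw [Finset.mem_filter] at hi
    rw [max_eq_left hi.2.le, volume_prism hn v e i hi.2, mul_right_comm,
      ENNReal.ofReal_mul (mul_nonneg (by positivity) hi.2.le)]
    refine mul_le_mul' le_rfl ?_
    exact ENNReal.ofReal_toReal_le.trans (volume_cone_le hn v hv hb i)
  · intro i _ hne
    by_contra hs
    rw [max_eq_right (not_lt.1 hs), mul_zero, ENNReal.ofReal_zero] at hne
    exact hne rfl

end Vale.Agent.P237
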