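import Vale.Agent.P237.Pins

/-!
P237: the set added by a unit segment is no larger than the shadow.
-/

noncomputable section

open MeasureTheory Set
open scoped RealInnerProductSpace ENNReal

namespace Vale.Agent.P237

theorem shadowBound : ShadowBound := by
  intro n K e hK hconv he
  set W : Submodule ℝ (E n) := (ℝ ∙ e)ᗮ with hW
  let σ : ℝ ≃ₗᵢ[ℝ] (ℝ ∙ e) := LinearIsometryEquiv.toSpanUnitSingleton e he
  let Φ : ℝ × W → E n := fun q =>
    (ℝ ∙ e).orthogonalDecomposition.symm (WithLp.toLp 2 (Prod.map σ id q))
  have hΦm : MeasurePreserving Φ volume volume :=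
    ((ℝ ∙ e).orthogonalDecomposition.symm.measurePreserving).comp
      ((WithLp.volume_preserving_toLp (ℝ ∙ e) W).comp
        (σ.measurePreserving.prod (MeasurePreserving.id (volume : Measure W))))
  have hΦ : ∀ q : ℝ × W, Φ q = q.1 • e + (q.2 : E n) := fun q => by
    simp [Φ, σ, LinearIsometryEquiv.toSpanUnitSingleton_apply,
      Submodule.orthogonalDecomposition_symm_apply]
  set U := {x : E n | x ∉ K ∧ ∃ t ∈ Icc (0 : ℝ) 1, x - t • e ∈ K} with hU
  have hS : IsCompact ((fun q : E n × ℝ => q.1 + q.2 • e) '' (K ×ˢ Icc (0 : ℝ) 1)) :=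
    (hK.prod isCompact_Icc).image (by fun_prop)
  have hUeq : U = ((fun q : E n × ℝ => q.1 + q.2 • e) '' (K ×ˢ Icc (0 : ℝ) 1)) \ K := by
    ext x
    constructor
    · rintro ⟨hx, t, ht, h⟩
      exact ⟨⟨(x - t • e, t), ⟨h, ht⟩, by simp⟩, hx⟩
    · rintro ⟨⟨⟨p, t⟩, ⟨hp, ht⟩, rfl⟩, hx⟩
      exact ⟨hx, t, ht, by simpa using hp⟩
  have hUm : MeasurableSet U := hUeq ▸ hS.measurableSet.diff hK.measurableSet
  set P : Set W := W.orthogonalProjectionOnto '' K with hP
  have hPc : IsCompact P := hK.image (W.orthogonalProjectionOnto).continuous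
  have hm : MeasurableSet (Φ ⁻¹' U) := hΦm.measurable hUm
  have hfib : ∀ y : W, volume ((fun s => (s, y)) ⁻¹' (Φ ⁻¹' U)) ≤ P.indicator (fun _ => 1) y := by
    intro y
    by_cases hy : y ∈ P
    · rw [indicator_of_mem hy]
      refine (Real.volume_le_diam _).trans (Metric.ediam_le ?_)
      intro a ha b hb
      rw [edist_dist, ← ENNReal.ofReal_one]
      refine ENNReal.ofReal_le_ofReal ?_
      have key : ∀ a b : ℝ, Φ (a, y) ∈ U → Φ (b, y) ∈ U → b ≤ a + 1 := by
        intro a b ha hb
        obtain ⟨hna, t, ht, hta⟩ := ha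
        obtain ⟨-, s, hs, hsb⟩ := hb
        by_contra hab
        push Not at hab
        simp only [hΦ] at hna hta hsb
        set α := a - t with hα
        set β := b - s with hβ
        have h1 : α ≤ a := by linarith [ht.1]
        have h2 : a < β := by linarith [hs.2]
        have hαβ : 0 < β - α := by linarith
        have hA : α • e + (y : E n) ∈ K := by
          convert hta using 1; rw [hα, sub_smul]; abel
        have hB : β • e + (y : E n) ∈ K := by
          convert hsb using 1; rw [hβ, sub_smul]; abel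
        have hc := hconv hA hB (show 0 ≤ (β - a) / (β - α) from div_nonneg (by linarith) hαβ.le)
          (show 0 ≤ (a - α) / (β - α) from div_nonneg (by linarith) hαβ.le)
          (by rw [← add_div, div_eq_one_iff_eq hαβ.ne']; ring)
        refine hna ?_
        convert hc using 1
        match_scalars <;> field_simp <;> ring
      have h1 := key a b ha hb
      have h2 := key b a hb ha
      rw [Real.dist_eq, abs_le]
      constructor <;> linarith
    · rw [indicator_of_notMem hy]
      suffices h0 : (fun s => (s, y)) ⁻¹' (Φ ⁻¹' U) = ∅ by rw [h0, measure_empty]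
      refine eq_empty_of_forall_notMem fun s hs => hy ?_
      obtain ⟨-, t, -, htK⟩ := hs
      refine ⟨_, htK, ?_⟩
      have he' : W.orthogonalProjectionOnto e = 0 :=
        Submodule.orthogonalProjectionOnto_apply_of_mem_orthogonal
          ((ℝ ∙ e).le_orthogonal_orthogonal (Submodule.mem_span_singleton_self e))
      rw [hΦ, map_sub, map_add, map_smul, map_smul, he',
        Submodule.orthogonalProjectionOnto_mem_subspace_eq_self]
      simp
  calc volume U = volume (Φ ⁻¹' U) := (hΦm.measure_preimage hUm.nullMeasurableSet).symm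
    _ = ∫⁻ y : W, volume ((fun s => (s, y)) ⁻¹' (Φ ⁻¹' U)) := Measure.prod_apply_symm hm
    _ ≤ ∫⁻ y : W, P.indicator (fun _ => 1) y := lintegral_mono hfib
    _ = volume P := by rw [lintegral_indicator hPc.measurableSet, setLIntegral_one]
    _ = ENNReal.ofReal (projArea K e) := (ENNReal.ofReal_toReal hPc.measure_lt_top.ne).symm

end Vale.Agent.P237
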