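import Vale.Agent.P237.Pins

/-!
P237: the numerical comparison `κ_{n-1}^n < κ_n^{n-1} e^{n/2} / 2` for `n ≥ 4`.
-/

noncomputable section

open MeasureTheory Set Matrix
open Real (Gamma exp pi)
open scoped RealInnerProductSpace ENNReal

namespace Vale.Agent.P237

lemma kappa_eq {m : ℕ} (hm : 0 < m) :
    kappa m = √Real.pi ^ m / Gamma ((m : ℝ) / 2 + 1) := by
  have : Nonempty (Fin m) := ⟨⟨0, hm⟩⟩
  have hG : 0 < Gamma ((m : ℝ) / 2 + 1) := Real.Gamma_pos_of_pos (by positivity)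
  rw [kappa, EuclideanSpace.volume_ball, ENNReal.ofReal_one, one_pow, one_mul, Fintype.card_fin,
    ENNReal.toReal_ofReal (div_nonneg (by positivity) hG.le)]

lemma gamma_half_step {x : ℝ} (hx : 0 < x) : Gamma (x + 1 / 2) ^ 2 ≤ x * Gamma x ^ 2 := by
  have h := Real.Gamma_mul_add_mul_le_rpow_Gamma_mul_rpow_Gamma hx (t := x + 1) (by linarith)
    (a := 1 / 2) (b := 1 / 2) (by norm_num) (by norm_num) (by norm_num)
  have hG := Real.Gamma_pos_of_pos hx
  have hG1 := Real.Gamma_pos_of_pos (by linarith : 0 < x + 1)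
  have hGh : 0 ≤ Gamma (x + 1 / 2) := (Real.Gamma_pos_of_pos (by linarith)).le
  rw [← Real.sqrt_eq_rpow, ← Real.sqrt_eq_rpow, ← Real.sqrt_mul hG.le,
    show 1 / 2 * x + 1 / 2 * (x + 1) = x + 1 / 2 by ring] at h
  have h2 := pow_le_pow_left₀ hGh h 2
  rw [Real.sq_sqrt (mul_pos hG hG1).le, Real.Gamma_add_one hx.ne'] at h2
  linarith [show Gamma x * (x * Gamma x) = x * Gamma x ^ 2 by ring]

lemma gamma_stirling : ∀ n : ℕ, 4 ≤ n →
    4 * (((n : ℝ) + 1) / (2 * exp 1)) ^ n < Gamma ((n : ℝ) / 2 + 1) ^ 2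
  | 0, h | 1, h | 2, h | 3, h => by omega
  | 4, _ => by
    have he : (5 / (2 * exp 1)) < (1 : ℝ) := by
      rw [div_lt_one (by positivity)]; linarith [Real.exp_one_gt_d9]
    have h1 : (5 / (2 * exp 1)) ^ 4 < (1 : ℝ) := pow_lt_one₀ (by positivity) he (by norm_num)
    have hG : Gamma ((2 : ℕ) + 1) = (2 : ℕ).factorial := Real.Gamma_nat_eq_factorial 2
    norm_num [Nat.factorial] at hG
    norm_num [hG]
    linarith
  | 5, _ => by
    have he : 6 / (2 * exp 1) ≤ (6 : ℝ) / 5 := by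
      rw [div_le_div_iff₀ (by positivity) (by norm_num)]; linarith [Real.exp_one_gt_d9]
    have h1 : (6 / (2 * exp 1)) ^ 5 ≤ ((6 : ℝ) / 5) ^ 5 := pow_le_pow_left₀ (by positivity) he 5
    have hG : Gamma ((7 : ℝ) / 2) = 15 / 8 * √Real.pi := by
      rw [show (7 : ℝ) / 2 = 5 / 2 + 1 by norm_num, Real.Gamma_add_one (by norm_num),
        show (5 : ℝ) / 2 = 3 / 2 + 1 by norm_num, Real.Gamma_add_one (by norm_num),
        show (3 : ℝ) / 2 = 1 / 2 + 1 by norm_num, Real.Gamma_add_one (by norm_num),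
        Real.Gamma_one_half_eq]
      ring
    norm_num [hG, mul_pow, Real.sq_sqrt Real.pi_pos.le] at h1 ⊢
    nlinarith [Real.pi_gt_three, h1]
  | n + 6, _ => by
    have ih := gamma_stirling (n + 4) (by omega)
    set m : ℝ := ((n + 4 : ℕ) : ℝ) with hm
    have hm0 : 0 ≤ m := by positivity
    have hc : ((n + 6 : ℕ) : ℝ) = m + 2 := by rw [hm]; push_cast; ring
    rw [hc, show (m + 2) / 2 + 1 = (m / 2 + 1) + 1 by ring,
      Real.Gamma_add_one (by positivity), mul_pow, show m + 2 + 1 = m + 3 by ring,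
      show n + 6 = (n + 4) + 2 from rfl, pow_add]
    -- the ratio of consecutive terms
    have h1 : (m + 3) / (m + 1) ≤ exp (2 / (m + 1)) := by
      have := Real.add_one_le_exp (2 / (m + 1))
      rwa [show 2 / (m + 1) + 1 = (m + 3) / (m + 1) by field_simp; ring] at this
    have h2 : ((m + 3) / (m + 1)) ^ (n + 4) ≤ exp (2 * m / (m + 1)) := by
      refine (pow_le_pow_left₀ (by positivity) h1 _).trans (le_of_eq ?_)
      rw [← Real.exp_nat_mul, ← hm]; ring_nf
    have h3 : (m + 3) * exp (-1 / (m + 1)) ≤ m + 2 := by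
      have := Real.add_one_le_exp (1 / (m + 1))
      rw [neg_div, Real.exp_neg, ← div_eq_mul_inv, div_le_iff₀ (Real.exp_pos _)]
      have h4 : 1 / (m + 1) * (m + 1) = 1 := one_div_mul_cancel (by positivity)
      nlinarith [mul_le_mul_of_nonneg_left this (by positivity : (0 : ℝ) ≤ (m + 1) * (m + 2))]
    have h5 : exp (2 * m / (m + 1)) = exp 1 ^ 2 * exp (-1 / (m + 1)) ^ 2 := by
      rw [← mul_pow, ← Real.exp_add, ← Real.exp_nat_mul]; congr 1; push_cast; field_simp; ring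
    calc 4 * (((m + 3) / (2 * exp 1)) ^ (n + 4) * ((m + 3) / (2 * exp 1)) ^ 2)
        = (4 * ((m + 1) / (2 * exp 1)) ^ (n + 4)) * ((m + 3) / (m + 1)) ^ (n + 4) *
          ((m + 3) / (2 * exp 1)) ^ 2 := by
          rw [mul_assoc (4 : ℝ) _ (((m + 3) / (m + 1)) ^ (n + 4)), ← mul_pow,
            show (m + 1) / (2 * exp 1) * ((m + 3) / (m + 1)) = (m + 3) / (2 * exp 1) by field_simp]
          ring
      _ ≤ (4 * ((m + 1) / (2 * exp 1)) ^ (n + 4)) * (exp 1 ^ 2 * exp (-1 / (m + 1)) ^ 2) *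
          ((m + 3) / (2 * exp 1)) ^ 2 := by
          rw [← h5]; gcongr
      _ = (4 * ((m + 1) / (2 * exp 1)) ^ (n + 4)) * ((m + 3) * exp (-1 / (m + 1)) / 2) ^ 2 := by
          field_simp
      _ ≤ (4 * ((m + 1) / (2 * exp 1)) ^ (n + 4)) * (m / 2 + 1) ^ 2 := by
          gcongr; linarith
      _ < Gamma (m / 2 + 1) ^ 2 * (m / 2 + 1) ^ 2 := by gcongr
      _ = (m / 2 + 1) ^ 2 * Gamma (m / 2 + 1) ^ 2 := mul_comm _ _

theorem ballConst : BallConst := by
  intro n hn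
  set x : ℝ := ((n : ℝ) + 1) / 2 with hxdef
  have hx : 0 < x := by positivity
  have hcast : ((n - 1 : ℕ) : ℝ) / 2 + 1 = x := by
    rw [hxdef, Nat.cast_sub (by omega), Nat.cast_one]; ring
  set A := Gamma x
  set B := Gamma ((n : ℝ) / 2 + 1)
  have hA : 0 < A := Real.Gamma_pos_of_pos hx
  have hB : 0 < B := Real.Gamma_pos_of_pos (by positivity)
  have hs : B ^ 2 ≤ x * A ^ 2 := by
    have := gamma_half_step hx
    rwa [show x + 1 / 2 = (n : ℝ) / 2 + 1 by rw [hxdef]; ring] at this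
  have key : 2 * B ^ (n - 1) < √(exp 1) ^ n * A ^ n := by
    refine (pow_lt_pow_iff_left₀ (by positivity) (by positivity) two_ne_zero).1 ?_
    have hn1 : B ^ (n - 1) * B = B ^ n := by rw [← pow_succ, Nat.sub_add_cancel (by omega)]
    have h := gamma_stirling n hn
    have hx2 : (((n : ℝ) + 1) / (2 * exp 1)) = x / exp 1 := by rw [hxdef, div_div]
    rw [hx2, div_pow, ← mul_div_assoc, div_lt_iff₀ (by positivity)] at h
    rw [mul_pow (√(exp 1) ^ n), ← pow_mul, mul_comm n 2, pow_mul, Real.sq_sqrt (Real.exp_pos 1).le]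
    refine lt_of_mul_lt_mul_right ?_ (sq_nonneg B)
    calc (2 * B ^ (n - 1)) ^ 2 * B ^ 2 = 4 * (B ^ 2) ^ n := by
          rw [← mul_pow, mul_assoc, hn1, mul_pow, ← pow_mul, ← pow_mul, mul_comm n 2]; norm_num
      _ ≤ 4 * (x * A ^ 2) ^ n := by gcongr
      _ = 4 * x ^ n * (A ^ n) ^ 2 := by rw [mul_pow, ← pow_mul, ← pow_mul, mul_comm n 2]; ring
      _ < B ^ 2 * exp 1 ^ n * (A ^ n) ^ 2 := by gcongr
      _ = exp 1 ^ n * (A ^ n) ^ 2 * B ^ 2 := by ring
  rw [kappa_eq (by omega), kappa_eq (by omega), hcast, div_pow, div_pow, ← pow_mul, ← pow_mul,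
    mul_comm (n - 1) n, div_mul_eq_mul_div, div_lt_div_iff₀ (by positivity) (by positivity)]
  have hp : 0 < √Real.pi ^ (n * (n - 1)) := by positivity
  nlinarith [mul_lt_mul_of_pos_left key hp]

end Vale.Agent.P237
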