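import Vale.Agent.P237.Pins

/-!
P237: if no volume preserving map shortens a family of vectors, its weighted Gram determinant is
large.
-/

noncomputable section

open MeasureTheory Set Matrix
open scoped RealInnerProductSpace ENNReal

namespace Vale.Agent.P237

namespace PositionAux

variable {n m : ℕ}

lemma gram_posSemidef (w : Fin m → ℝ) (a : Fin m → E n) (hw : ∀ i, 0 ≤ w i) :
    (gram w a).PosSemidef := by
  classical
  refine Finset.sum_induction _ Matrix.PosSemidef (fun _ _ => Matrix.PosSemidef.add)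
    Matrix.PosSemidef.zero fun i _ => ?_
  have h := (Matrix.posSemidef_vecMulVec_self_star (⇑(a i) : Fin n → ℝ)).smul (hw i)
  simpa using h

lemma norm_sq_toEuclideanLin (S : Matrix (Fin n) (Fin n) ℝ) (x : E n) :
    ‖toEuclideanLin S x‖ ^ 2 = ∑ k, (S *ᵥ ⇑x) k ^ 2 := by
  rw [EuclideanSpace.real_norm_sq_eq]
  rfl

/-- The bound with a shift `d > 0`. -/
lemma shifted (hn : 0 < n) (b : Fin m → E n) (f₀ : ℝ) (hf : 0 ≤ f₀)
    (h : ∀ S : Matrix (Fin n) (Fin n) ℝ, |S.det| = 1 → f₀ ≤ ∑ i, ‖toEuclideanLin S (b i)‖)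
    {d : ℝ} (hd : 0 < d) :
    f₀ ^ (2 * n) ≤
      ((∑ i, ‖b i‖) * n) ^ n * (gram (fun i => ‖b i‖⁻¹) b + d • 1).det := by
  classical
  set M := gram (fun i => ‖b i‖⁻¹) b with hM
  have hMpsd : M.PosSemidef := gram_posSemidef _ b fun i => inv_nonneg.2 (norm_nonneg _)
  have hA : (M + d • 1).PosDef :=
    (Matrix.PosDef.one.smul hd).posSemidef_add hMpsd
  set U : Matrix (Fin n) (Fin n) ℝ := (hA.1.eigenvectorUnitary : Matrix (Fin n) (Fin n) ℝ) with hU
  set l := hA.1.eigenvalues with hl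
  have hlpos : ∀ k, 0 < l k := hA.eigenvalues_pos
  have hUU : star U * U = 1 := hA.1.eigenvectorUnitary.2.1
  have hdiag : star U * (M + d • 1) * U = diagonal l := by
    have h1 := hA.1.conjStarAlgAut_star_eigenvectorUnitary
    rw [Unitary.conjStarAlgAut_star_apply] at h1
    simpa [hU, hl] using h1
  have hUdet : |U.det| = 1 := by
    have h1 := congrArg Matrix.det hUU
    rw [Matrix.det_mul, Matrix.det_one, star_eq_conjTranspose, Matrix.det_conjTranspose] at h1
    simp only [star_trivial] at h1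
    nlinarith [sq_abs U.det, abs_nonneg U.det]
  have hdetA : (M + d • 1).det = ∏ k, l k := by simpa [hl] using hA.1.det_eq_prod_eigenvalues
  have hApos : 0 < (M + d • 1).det := hA.det_pos
  set c : ℝ := (M + d • 1).det ^ ((2 * n : ℝ)⁻¹) with hc
  have hc0 : 0 < c := Real.rpow_pos_of_pos hApos _
  have hcn : c ^ (2 * n) = (M + d • 1).det := by
    rw [hc, ← Real.rpow_natCast, ← Real.rpow_mul hApos.le, Nat.cast_mul, Nat.cast_ofNat,
      inv_mul_cancel₀ (by positivity), Real.rpow_one]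
  set S : Matrix (Fin n) (Fin n) ℝ := diagonal (fun k => c / √(l k)) * star U with hS
  have hSdet : |S.det| = 1 := by
    rw [hS, Matrix.det_mul, Matrix.det_diagonal, star_eq_conjTranspose, Matrix.det_conjTranspose,
      star_trivial, abs_mul, hUdet, mul_one, abs_of_pos (Finset.prod_pos fun k _ =>
        div_pos hc0 (Real.sqrt_pos.2 (hlpos k))), Finset.prod_div_distrib, Finset.prod_const,
      Finset.card_univ, Fintype.card_fin, div_eq_one_iff_eq (Finset.prod_pos fun k _ =>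
        Real.sqrt_pos.2 (hlpos k)).ne']
    refine (sq_eq_sq₀ (pow_nonneg hc0.le n) (Finset.prod_nonneg fun k _ => Real.sqrt_nonneg _)).1 ?_
    rw [← pow_mul, mul_comm, hcn, hdetA, ← Finset.prod_pow]
    exact Finset.prod_congr rfl fun k _ => (Real.sq_sqrt (hlpos k).le).symm
  -- the weighted sum of squares is at most `c² n`
  have hSb : ∀ i k, (S *ᵥ ⇑(b i)) k = c / √(l k) * (star U *ᵥ ⇑(b i)) k := fun i k => by
    rw [hS, ← Matrix.mulVec_mulVec, Matrix.mulVec_diagonal]
  have hkk : ∀ k, ∑ i, ‖b i‖⁻¹ * (star U *ᵥ ⇑(b i)) k ^ 2 = l k - d := by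
    intro k
    have h1 : star U * M * U = diagonal l - d • 1 := by
      rw [← hdiag, mul_add, add_mul, Matrix.mul_smul, Matrix.smul_mul, mul_one, hUU, add_sub_cancel_right]
    have h2 := congrFun (congrFun h1 k) k
    rw [Matrix.sub_apply, Matrix.diagonal_apply_eq, Matrix.smul_apply, Matrix.one_apply_eq,
      smul_eq_mul, mul_one] at h2
    rw [← h2, hM, gram, Finset.mul_sum, Finset.sum_mul, Matrix.sum_apply]
    refine Finset.sum_congr rfl fun i _ => ?_
    rw [Matrix.mul_smul, Matrix.smul_mul, Matrix.smul_apply, smul_eq_mul, Matrix.mul_vecMulVec,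
      Matrix.vecMulVec_mul, Matrix.vecMulVec_apply, sq]
    congr 2
    simp [Matrix.mulVec, Matrix.vecMul, dotProduct, mul_comm]
  have hsum : ∑ i, ‖b i‖⁻¹ * ‖toEuclideanLin S (b i)‖ ^ 2 ≤ c ^ 2 * n := by
    calc ∑ i, ‖b i‖⁻¹ * ‖toEuclideanLin S (b i)‖ ^ 2
        = ∑ k, c ^ 2 / l k * ∑ i, ‖b i‖⁻¹ * (star U *ᵥ ⇑(b i)) k ^ 2 := by
          simp only [norm_sq_toEuclideanLin, hSb, Finset.mul_sum]
          rw [Finset.sum_comm]
          refine Finset.sum_congr rfl fun k _ => Finset.sum_congr rfl fun i _ => ?_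
          rw [mul_pow, div_pow, Real.sq_sqrt (hlpos k).le]
          ring
      _ ≤ ∑ _k : Fin n, c ^ 2 := Finset.sum_le_sum fun k _ => by
          rw [hkk, div_mul_eq_mul_div, div_le_iff₀ (hlpos k)]
          nlinarith [sq_nonneg c, hlpos k]
      _ = c ^ 2 * n := by simp [mul_comm]
  -- Cauchy-Schwarz
  have hcs : (∑ i, ‖toEuclideanLin S (b i)‖) ^ 2 ≤
      (∑ i, ‖b i‖) * ∑ i, ‖b i‖⁻¹ * ‖toEuclideanLin S (b i)‖ ^ 2 := by
    refine Finset.sum_sq_le_sum_mul_sum_of_sq_le_mul _ (fun i _ => norm_nonneg _)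
      (fun i _ => by positivity) fun i _ => ?_
    by_cases hb : b i = 0
    · simp [hb]
    · rw [← mul_assoc, mul_inv_cancel₀ (norm_ne_zero_iff.2 hb), one_mul]
  have h2 : f₀ ^ 2 ≤ (∑ i, ‖b i‖) * (c ^ 2 * n) :=
    ((pow_le_pow_left₀ hf (h S hSdet) 2).trans hcs).trans
      (mul_le_mul_of_nonneg_left hsum (Finset.sum_nonneg fun i _ => norm_nonneg _))
  calc f₀ ^ (2 * n) = (f₀ ^ 2) ^ n := pow_mul _ _ _
    _ ≤ ((∑ i, ‖b i‖) * (c ^ 2 * n)) ^ n := pow_le_pow_left₀ (sq_nonneg _) h2 n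
    _ = ((∑ i, ‖b i‖) * n) ^ n * c ^ (2 * n) := by rw [pow_mul, ← mul_pow]; ring
    _ = _ := by rw [hcn]

end PositionAux

/-- If no volume preserving map shortens the family below `f₀`, the Gram determinant is large. -/
theorem position : Position := by
  intro n m b f₀ hn hf h
  have hc : Continuous fun d : ℝ => ((∑ i, ‖b i‖) * n) ^ n *
      (gram (fun i => ‖b i‖⁻¹) b + d • 1).det :=
    continuous_const.mul (Continuous.matrix_det (by fun_prop))
  have ht := ((hc.tendsto 0).mono_left (nhdsWithin_le_nhds (s := Ioi (0 : ℝ))))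
  simp only [zero_smul, add_zero] at ht
  exact ge_of_tendsto ht (eventually_nhdsWithin_of_forall fun d hd =>
    PositionAux.shifted hn b f₀ hf h hd)

end Vale.Agent.P237
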