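import Vale.Agent.P237.CylinderCap
import Vale.Agent.P237.ShadowBound
import Vale.Agent.P237.PrismBound
import Vale.Agent.P237.Minkowski
import Vale.Agent.P237.ZonoDet
import Vale.Agent.P237.Position
import Vale.Agent.P237.BallConst

/-!
P237: Petty's inequality for intersections of exponentially many cylinders with low dimensional
bases, through inscribed polytopes.
-/

noncomputable section

open MeasureTheory Set Matrix Filter
open scoped RealInnerProductSpace ENNReal Pointwise Topology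

namespace Vale.Agent.P237

variable {n N : ℕ}

/-- A point outside a cylinder over a base in `V` is cut off by a normal in `V`. -/
lemma exists_normal {C : Set (E n)} (V : Submodule ℝ (E n)) (hcl : IsClosed C)
    (hconv : Convex ℝ C) (h0 : (0 : E n) ∈ C) (hinv : ∀ x ∈ C, ∀ y ∈ Vᗮ, x + y ∈ C) {x : E n}
    (hx : x ∉ C) : ∃ v ∈ V, (∀ y ∈ C, ⟪v, y⟫ ≤ 1) ∧ 1 < ⟪v, x⟫ := by
  obtain ⟨f, u, hf, hfx⟩ := geometric_hahn_banach_closed_point hconv hcl hx
  have hu : 0 < u := by simpa using hf 0 h0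
  set g := (InnerProductSpace.toDual ℝ (E n)).symm f
  have hg : ∀ y, ⟪g, y⟫ = f y := fun y => InnerProductSpace.toDual_symm_apply
  refine ⟨u⁻¹ • g, ?_, fun y hy => ?_, ?_⟩
  · rw [← Submodule.orthogonal_orthogonal V, Submodule.mem_orthogonal]
    intro y hy
    rw [real_inner_smul_right, real_inner_comm, hg]
    suffices f y = 0 by simp [this]
    by_contra hne
    have h := hf (0 + (2 * u / f y) • y) (hinv 0 h0 _ (Submodule.smul_mem _ _ hy))
    rw [zero_add, map_smul, smul_eq_mul, div_mul_cancel₀ _ hne] at h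
    linarith
  · rw [real_inner_smul_left, hg, inv_mul_le_iff₀ hu, mul_one]; exact (hf y hy).le
  · rw [real_inner_smul_left, hg, lt_inv_mul_iff₀ hu, mul_one]; exact hfx

/-- A point outside a closed set containing the origin has a positive multiple on its frontier. -/
lemma exists_smul_mem_frontier {A : Set (E n)} (hA : IsClosed A) (h0 : (0 : E n) ∈ A) {y : E n}
    (hy : y ∉ A) : ∃ r ∈ Icc (0 : ℝ) 1, r • y ∈ frontier A := by
  have hS : IsCompact {r : ℝ | r ∈ Icc (0 : ℝ) 1 ∧ r • y ∈ A} :=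
    isCompact_Icc.inter_right (hA.preimage (by fun_prop))
  set S := {r : ℝ | r ∈ Icc (0 : ℝ) 1 ∧ r • y ∈ A}
  have hne : S.Nonempty := ⟨0, ⟨le_rfl, zero_le_one⟩, by simpa using h0⟩
  obtain ⟨hr, hrA⟩ := hS.sSup_mem hne
  set r := sSup S
  refine ⟨r, hr, ?_⟩
  rw [hA.frontier_eq]
  refine ⟨hrA, fun hint => ?_⟩
  have hr1 : r < 1 := lt_of_le_of_ne hr.2 fun h => hy (by simpa [h] using hrA)
  have hopen : IsOpen {s : ℝ | s • y ∈ interior A} := isOpen_interior.preimage (by fun_prop)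
  obtain ⟨ε, hε, hball⟩ := Metric.isOpen_iff.1 hopen r hint
  have hmem : r + min (ε / 2) (1 - r) ∈ S := by
    have hm : 0 < min (ε / 2) (1 - r) := lt_min (by linarith) (by linarith)
    refine ⟨⟨by linarith [hr.1], by linarith [min_le_right (ε / 2) (1 - r)]⟩,
      interior_subset (s := A) (hball ?_)⟩
    rw [Metric.mem_ball, Real.dist_eq, add_sub_cancel_left, abs_of_pos hm]
    linarith [min_le_left (ε / 2) (1 - r)]
  have := le_csSup hS.bddAbove hmem
  have hm : 0 < min (ε / 2) (1 - r) := lt_min (by linarith) (by linarith)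
  linarith

/-- An intersection of cylinders contains, up to scaling, a polytope with normals in their bases. -/
lemma exists_polytope {K : Set (E n)} (hK : IsCompact K) (hKc : Convex ℝ K)
    (h0 : (0 : E n) ∈ interior K) (V : Fin N → Submodule ℝ (E n)) (C : Fin N → Set (E n))
    (hKeq : K = ⋂ j, C j) (hcl : ∀ j, IsClosed (C j)) (hconv : ∀ j, Convex ℝ (C j))
    (hinv : ∀ j, ∀ x ∈ C j, ∀ y ∈ (V j)ᗮ, x + y ∈ C j) {δ : ℝ} (hδ : 0 < δ) :
    ∃ (M : ℕ) (v : Fin M → E n), Function.Injective v ∧ (∀ i, ∃ j, v i ∈ V j) ∧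
      (∀ x ∈ K, ∀ i, ⟪v i, x⟫ ≤ 1) ∧ (Poly v fun _ => 1) ⊆ (1 + δ) • K := by
  classical
  have hδ1 : (1 + δ) ≠ 0 := by positivity
  set A := (1 + δ) • K
  have hAc : IsCompact A := hK.smul (1 + δ)
  have hfront : IsCompact (frontier A) :=
    hAc.of_isClosed_subset isClosed_frontier hAc.isClosed.frontier_subset
  have hout : ∀ z ∈ frontier A, z ∉ K := by
    intro z hz hzK
    rw [hAc.isClosed.frontier_eq] at hz
    refine hz.2 ?_
    have hlt : (1 + δ)⁻¹ • z ∈ interior K := by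
      have h := hKc.combo_interior_self_mem_interior h0 hzK
        (show 0 < 1 - (1 + δ)⁻¹ by
          rw [sub_pos]; exact inv_lt_one_of_one_lt₀ (by linarith))
        (show 0 ≤ (1 + δ)⁻¹ by positivity) (by ring)
      simpa using h
    rw [interior_smul₀ hδ1]
    exact ⟨_, hlt, smul_inv_smul₀ hδ1 z⟩
  have hsep : ∀ z : frontier A, ∃ v : E n, (∃ j, v ∈ V j) ∧ (∀ y ∈ K, ⟪v, y⟫ ≤ 1) ∧
      1 < ⟪v, (z : E n)⟫ := by
    intro z
    have hz := hout z z.2
    rw [hKeq, mem_iInter, not_forall] at hz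
    obtain ⟨j, hj⟩ := hz
    have h0j : (0 : E n) ∈ C j := mem_iInter.1 (hKeq ▸ interior_subset h0) j
    obtain ⟨v, hv, hle, hlt⟩ := exists_normal (V j) (hcl j) (hconv j) h0j (hinv j) hj
    exact ⟨v, ⟨j, hv⟩, fun y hy => hle y (mem_iInter.1 (hKeq ▸ hy) j), hlt⟩
  choose g hgV hgK hgz using hsep
  obtain ⟨T, hT⟩ := hfront.elim_finite_subcover (fun z : frontier A => {x : E n | 1 < ⟪g z, x⟫})
    (fun z => isOpen_lt continuous_const (by fun_prop))
    (fun x hx => mem_iUnion.2 ⟨⟨x, hx⟩, hgz ⟨x, hx⟩⟩)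
  set s := T.image g
  refine ⟨s.card, fun k => (s.equivFin.symm k : E n),
    Subtype.val_injective.comp s.equivFin.symm.injective, fun i => ?_, fun x hx i => ?_, ?_⟩
  · obtain ⟨z, -, hz⟩ := Finset.mem_image.1 (s.equivFin.symm i).2
    simp only [← hz]; exact hgV z
  · obtain ⟨z, -, hz⟩ := Finset.mem_image.1 (s.equivFin.symm i).2
    simp only [← hz]; exact hgK z x hx
  · intro y hy
    by_contra hyA
    obtain ⟨r, hr, hrf⟩ := exists_smul_mem_frontier hAc.isClosed
      ⟨0, interior_subset h0, smul_zero _⟩ hyA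
    obtain ⟨z, hzT, hz⟩ := mem_iUnion₂.1 (hT hrf)
    have h1 := hy (s.equivFin ⟨g z, Finset.mem_image_of_mem g hzT⟩)
    simp only [Equiv.symm_apply_apply] at h1
    rw [mem_ofPred_eq, real_inner_smul_right] at hz
    nlinarith [hr.1, hr.2]

/-- The lower bound for an intersection of cylinders with the origin inside. -/
lemma centred_cylinder_bound (hn : 0 < n) {K : Set (E n)} (hK : IsCompact K) (hKc : Convex ℝ K)
    (h0 : (0 : E n) ∈ interior K) (V : Fin N → Submodule ℝ (E n)) (C : Fin N → Set (E n))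
    (hKeq : K = ⋂ j, C j) (hcl : ∀ j, IsClosed (C j)) (hconv : ∀ j, Convex ℝ (C j))
    (hinv : ∀ j, ∀ x ∈ C j, ∀ y ∈ (V j)ᗮ, x + y ∈ C j) {d : ℕ}
    (hd : ∀ j, Module.finrank ℝ (V j) ≤ d) {R t : ℝ} (hR : 1 ≤ R) (ht : 0 < t) (ht1 : t ≤ 1) :
    kappa n * (R ^ n - N * (√(R ^ 2 - 1 + t) ^ n * (√t)⁻¹ ^ d)) *
      (volume K).toReal ^ (n - 1) ≤ (volume (projBody K)).toReal := by
  set D := kappa n * (R ^ n - N * (√(R ^ 2 - 1 + t) ^ n * (√t)⁻¹ ^ d))
  rcases le_or_gt D 0 with hD | hD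
  · exact (mul_nonpos_of_nonpos_of_nonneg hD (by positivity)).trans ENNReal.toReal_nonneg
  -- the bound with a loss, for every scale
  have key : ∀ δ : ℝ, 0 < δ →
      D * ((volume K).toReal * ((1 + δ) ^ n)⁻¹) ^ (n - 1) ≤ (volume (projBody K)).toReal := by
    intro δ hδ
    obtain ⟨M, v, hv, hvV, hKv, hvK⟩ := exists_polytope hK hKc h0 V C hKeq hcl hconv hinv hδ
    set c := 1 + δ
    have hc : 0 < c := by positivity
    set w := fun i => c • v i with hw
    have hsubK : Poly w (fun _ => 1) ⊆ K := by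
      intro x hx
      have hcx : c • x ∈ Poly v fun _ => 1 := fun i => by
        have := hx i
        rwa [hw, real_inner_smul_left, ← real_inner_smul_right] at this
      exact (smul_mem_smul_set_iff₀ hc.ne' K x).1 (hvK hcx)
    have hwinj : Function.Injective w := fun a b h => hv (smul_right_injective (E n) hc.ne' h)
    have hb : Bornology.IsBounded (Poly w fun _ => 1) := hK.isBounded.subset hsubK
    have h := normalized_bound_of_cap shadowBound prismBound minkowskiFirst zonoDet position hn w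
      hwinj hb (R := R) (B := D) hR fun T _ => by
        refine capBound_subspaces (fun j => (V j).map (toEuclideanLin T))
          (fun j => (Submodule.finrank_map_le _ _).trans (hd j)) _ (fun i => ?_) (fun i => ?_)
          hR ht ht1
        · rw [norm_smul, norm_inv, norm_norm, inv_mul_eq_div]; exact div_self_le_one _
        · obtain ⟨j, hj⟩ := hvV i
          exact ⟨j, Submodule.smul_mem _ _
            (Submodule.mem_map_of_mem (Submodule.smul_mem _ _ hj))⟩
    have hlow : (volume K).toReal * (c ^ n)⁻¹ ≤ (volume (Poly w fun _ => 1)).toReal := by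
      have hsub : c⁻¹ • K ⊆ Poly w fun _ => 1 := by
        rintro _ ⟨x, hx, rfl⟩ i
        rw [hw, real_inner_smul_left, real_inner_smul_right, ← mul_assoc,
          mul_inv_cancel₀ hc.ne', one_mul]
        exact hKv x hx i
      refine le_trans (le_of_eq ?_) (ENNReal.toReal_mono hb.measure_lt_top.ne (measure_mono hsub))
      rw [Measure.addHaar_smul_of_nonneg volume (inv_nonneg.2 hc.le), ENNReal.toReal_mul,
        finrank_euclideanSpace_fin, ENNReal.toReal_ofReal (by positivity), inv_pow, mul_comm]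
    refine le_trans ?_ (h.trans (ENNReal.toReal_mono (isBounded_projBody K).measure_lt_top.ne
      (measure_mono (projBody_mono hK hsubK))))
    gcongr
  -- let the loss tend to zero
  refine le_of_tendsto (f := fun δ : ℝ => D * ((volume K).toReal * ((1 + δ) ^ n)⁻¹) ^ (n - 1))
    (x := 𝓝[>] (0 : ℝ)) ?_ (eventually_nhdsWithin_of_forall fun δ hδ => key δ hδ)
  have hcont : ContinuousAt
      (fun δ : ℝ => D * ((volume K).toReal * ((1 + δ) ^ n)⁻¹) ^ (n - 1)) 0 :=
    continuousAt_const.mul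
      ((continuousAt_const.mul (ContinuousAt.inv₀ (by fun_prop) (by simp))).pow _)
  simpa using hcont.tendsto.mono_left nhdsWithin_le_nhds

/-- Petty's inequality, strict, for intersections of few cylinders with low dimensional bases. -/
theorem petty_cylinders (hn : 4 ≤ n) {K : Set (E n)} (hK : IsCompact K)
    (hi : (interior K).Nonempty) (V : Fin N → Submodule ℝ (E n)) (C : Fin N → Set (E n))
    (hKeq : K = ⋂ j, C j) (hcl : ∀ j, IsClosed (C j)) (hconv : ∀ j, Convex ℝ (C j))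
    (hinv : ∀ j, ∀ x ∈ C j, ∀ y ∈ (V j)ᗮ, x + y ∈ C j) {d : ℕ}
    (hd : ∀ j, Module.finrank ℝ (V j) ≤ d) {t : ℝ} (ht : 0 < t) (ht1 : t ≤ 1)
    (hN : (N : ℝ) * (√(1 - (1 - t) * Real.exp (-1)) ^ n * (√t)⁻¹ ^ d) ≤ 1 / 2) :
    kappa (n - 1) ^ n * kappa n ^ ((2 : ℤ) - n) * (volume K).toReal ^ (n - 1) <
      (volume (projBody K)).toReal := by
  obtain ⟨x₀, hx₀⟩ := hi
  set C' := fun j => (fun y => x₀ + y) ⁻¹' C j
  set K' := (fun y => x₀ + y) ⁻¹' K with hK'
  have himg : (fun y => x₀ + y) '' K' = K :=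
    Set.image_preimage_eq K (add_left_surjective x₀)
  have hK'c : IsCompact K' := (Homeomorph.addLeft x₀).isCompact_preimage.2 hK
  have hconvK : Convex ℝ K := hKeq ▸ convex_iInter hconv
  have h0 : (0 : E n) ∈ interior K' := by
    have h : interior K' = (fun y => x₀ + y) ⁻¹' interior K :=
      ((Homeomorph.addLeft x₀).preimage_interior K).symm
    rw [h]; simpa using hx₀
  have hb := centred_cylinder_bound (by omega) hK'c (hconvK.translate_preimage_left x₀ |> fun h => by
      simpa [hK', add_comm] using h) h0 V C' (by rw [hK', hKeq, preimage_iInter])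
    (fun j => (hcl j).preimage (by fun_prop))
    (fun j => by simpa [C', add_comm] using (hconv j).translate_preimage_left x₀)
    (fun j x hx y hy => by
      have := hinv j _ hx y hy
      simpa [C', add_assoc] using this) hd
    (R := √(Real.exp 1)) (Real.one_le_sqrt.2 (by linarith [Real.add_one_le_exp 1])) ht ht1
  rw [← projBody_vadd K' x₀, himg, show (volume K').toReal = (volume K).toReal by
    rw [hK', measure_preimage_add]] at hb
  refine lt_of_lt_of_le ?_ hb
  set s := √(Real.exp 1) with hs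
  set q := √(1 - (1 - t) * Real.exp (-1))
  have hvol : 0 < (volume K).toReal :=
    ENNReal.toReal_pos (Measure.measure_pos_of_nonempty_interior volume ⟨x₀, hx₀⟩).ne'
      hK.measure_lt_top.ne
  have hsq : √(s ^ 2 - 1 + t) = s * q := by
    rw [hs, ← Real.sqrt_mul (Real.exp_pos 1).le, Real.sq_sqrt (Real.exp_pos 1).le, mul_sub, mul_one,
      mul_left_comm, ← Real.exp_add]
    norm_num
    ring_nf
  rw [hsq, mul_pow, show (N : ℝ) * (s ^ n * q ^ n * (√t)⁻¹ ^ d)
      = s ^ n * ((N : ℝ) * (q ^ n * (√t)⁻¹ ^ d)) by ring]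
  refine mul_lt_mul_of_pos_right ?_ (pow_pos hvol _)
  have hk : 0 < kappa n :=
    ENNReal.toReal_pos (Metric.measure_ball_pos volume _ one_pos).ne' measure_ball_lt_top.ne
  have hz : kappa n ^ ((2 : ℤ) - n) = kappa n / kappa n ^ (n - 1) := by
    rw [← zpow_natCast (kappa n) (n - 1), Nat.cast_sub (by omega)]
    nth_rw 2 [← zpow_one (kappa n)]
    rw [← zpow_sub₀ hk.ne']
    congr 1
    push_cast
    ring
  rw [hz, mul_div_assoc', div_lt_iff₀ (pow_pos hk _)]
  have h1 := ballConst n hn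
  have h2 : s ^ n / 2 ≤ s ^ n - s ^ n * ((N : ℝ) * (q ^ n * (√t)⁻¹ ^ d)) := by
    nlinarith [mul_le_mul_of_nonneg_left hN (pow_nonneg (Real.sqrt_nonneg (Real.exp 1)) n)]
  calc kappa (n - 1) ^ n * kappa n < kappa n ^ (n - 1) * (s ^ n / 2) * kappa n := by gcongr
    _ ≤ kappa n ^ (n - 1) * (s ^ n - s ^ n * ((N : ℝ) * (q ^ n * (√t)⁻¹ ^ d))) * kappa n := by
        gcongr
    _ = _ := by ring

/-- Bases of dimension at most a quarter of `n` allow exponentially many cylinders. -/
lemma quarter_rate {n d : ℕ} (hd : 4 * d ≤ n) :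
    √(1 - (1 - 4 / 7) * Real.exp (-1)) ^ n * (√(4 / 7 : ℝ))⁻¹ ^ d ≤ (197 / 200) ^ n := by
  set q := √(1 - (1 - 4 / 7) * Real.exp (-1))
  set a := (√(4 / 7 : ℝ))⁻¹ with ha
  have he : Real.exp (-1) = (Real.exp 1)⁻¹ := Real.exp_neg 1
  have he1 : 0.36787 ≤ Real.exp (-1) := by
    rw [he, le_inv_comm₀ (by norm_num) (Real.exp_pos 1)]
    linarith [Real.exp_one_lt_d9]
  have hq2 : q ^ 2 ≤ 1 - (1 - 4 / 7) * 0.36787 := by
    rw [Real.sq_sqrt (by nlinarith [Real.exp_lt_one_iff.2 (by norm_num : (-1 : ℝ) < 0)])]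
    linarith
  have ha2 : a ^ 2 = 7 / 4 := by
    rw [ha, inv_pow, Real.sq_sqrt (by norm_num)]; norm_num
  have ha1 : 1 ≤ a := by
    nlinarith [show 0 ≤ a by positivity]
  have h8 : (q ^ 4 * a) ^ 2 ≤ ((197 / 200) ^ 4) ^ 2 := by
    rw [mul_pow, ha2, show (q ^ 4) ^ 2 = (q ^ 2) ^ 4 by ring]
    exact (mul_le_mul_of_nonneg_right (pow_le_pow_left₀ (sq_nonneg q) hq2 4) (by norm_num)).trans
      (by norm_num)
  have h4 : q ^ 4 * a ≤ (197 / 200) ^ 4 :=
    (pow_le_pow_iff_left₀ (by positivity) (by positivity) two_ne_zero).1 h8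
  refine (pow_le_pow_iff_left₀ (by positivity) (by positivity) (by norm_num : 4 ≠ 0)).1 ?_
  calc (q ^ n * a ^ d) ^ 4 = (q ^ 4) ^ n * a ^ (4 * d) := by
        rw [mul_pow, ← pow_mul, ← pow_mul, ← pow_mul, mul_comm n 4, mul_comm d 4]
    _ ≤ (q ^ 4) ^ n * a ^ n := by gcongr
    _ = (q ^ 4 * a) ^ n := (mul_pow _ _ _).symm
    _ ≤ ((197 / 200) ^ 4) ^ n := pow_le_pow_left₀ (by positivity) h4 n
    _ = ((197 / 200 : ℝ) ^ n) ^ 4 := by rw [← pow_mul, ← pow_mul, mul_comm]

end Vale.Agent.P237
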