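import Vale.Agent.P237.Pins

/-!
P237: half-spaces at distance one from the origin remove little volume from a ball.
-/

noncomputable section

open MeasureTheory Set Matrix
open scoped RealInnerProductSpace ENNReal

namespace Vale.Agent.P237

lemma volume_closedBall_toReal {n : ℕ} (x : E n) {r : ℝ} (hr : 0 ≤ r) :
    (volume (Metric.closedBall x r)).toReal = r ^ n * kappa n := by
  rw [Measure.addHaar_closedBall volume x hr, ENNReal.toReal_mul, finrank_euclideanSpace_fin,
    ENNReal.toReal_ofReal (pow_nonneg hr n), kappa]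

theorem capBound : CapBound := by
  intro n N e R _ hR he
  set r := √(R ^ 2 - 1)
  set L := Poly e (fun _ => 1) ∩ Metric.closedBall 0 R
  have hsub : Metric.closedBall (0 : E n) R ⊆ L ∪ ⋃ i, Metric.closedBall (e i) r := by
    intro x hx
    by_cases h : x ∈ Poly e fun _ => 1
    · exact Or.inl ⟨h, hx⟩
    · simp only [Poly, mem_setOf_eq, not_forall, not_le] at h
      obtain ⟨i, hi⟩ := h
      refine Or.inr (mem_iUnion.2 ⟨i, ?_⟩)
      rw [mem_closedBall_zero_iff] at hx
      rw [Metric.mem_closedBall, dist_eq_norm]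
      refine Real.le_sqrt_of_sq_le ?_
      have h1 : ‖x - e i‖ ^ 2 = ‖x‖ ^ 2 - 2 * ⟪x, e i⟫ + ‖e i‖ ^ 2 := norm_sub_sq_real x (e i)
      have h2 : ⟪x, e i⟫ = ⟪e i, x⟫ := real_inner_comm _ _
      have h3 : ‖e i‖ ^ 2 ≤ 1 := pow_le_one₀ (norm_nonneg _) (he i)
      have h4 : ‖x‖ ^ 2 ≤ R ^ 2 := pow_le_pow_left₀ (norm_nonneg _) hx 2
      linarith
  have hfinL : volume L ≠ ⊤ :=
    ((measure_mono inter_subset_right).trans_lt measure_closedBall_lt_top).ne
  have hfinU : volume (⋃ i, Metric.closedBall (e i) r) ≠ ⊤ :=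
    (lt_of_le_of_lt (measure_iUnion_fintype_le _ _)
      (ENNReal.sum_lt_top.2 fun i _ => measure_closedBall_lt_top)).ne
  have h := ENNReal.toReal_mono (ENNReal.add_ne_top.2 ⟨hfinL, hfinU⟩)
    ((measure_mono hsub).trans (measure_union_le L _))
  rw [ENNReal.toReal_add hfinL hfinU,
    volume_closedBall_toReal 0 (zero_le_one.trans hR)] at h
  have hU : (volume (⋃ i, Metric.closedBall (e i) r)).toReal ≤ N * (r ^ n * kappa n) := by
    refine (ENNReal.toReal_mono (ENNReal.sum_lt_top.2 fun i _ => measure_closedBall_lt_top).ne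
      (measure_iUnion_fintype_le _ _)).trans ?_
    rw [ENNReal.toReal_sum fun i _ => measure_closedBall_lt_top.ne]
    simp [volume_closedBall_toReal _ (Real.sqrt_nonneg _), r]
  nlinarith

end Vale.Agent.P237
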