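import Vale.Agent.P237.Assembly
import Vale.Agent.P237.CapBound

/-!
P237: the part of a ball far from the orthogonal complement of a low dimensional subspace.
-/

noncomputable section

open MeasureTheory Set Matrix
open scoped RealInnerProductSpace ENNReal

namespace Vale.Agent.P237

variable {n : ℕ}

/-- The map that stretches `U` by `a` and fixes its orthogonal complement. -/
def stretch (U : Submodule ℝ (E n)) (a : ℝ) : E n →ₗ[ℝ] E n :=
  LinearMap.id + (a - 1) • (U.starProjection : E n →L[ℝ] E n).toLinearMap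

lemma det_stretch (U : Submodule ℝ (E n)) (a : ℝ) :
    LinearMap.det (stretch U a) = a ^ Module.finrank ℝ U := by
  have hU : IsCompl U Uᗮ := Submodule.isCompl_orthogonal (K := U)
  let e := U.prodEquivOfIsCompl Uᗮ hU
  have hconj : stretch U a = e.toLinearMap ∘ₗ
      LinearMap.prodMap (a • LinearMap.id) LinearMap.id ∘ₗ e.symm.toLinearMap := by
    refine LinearMap.ext fun x => ?_
    obtain ⟨⟨p, q⟩, rfl⟩ := e.surjective x
    have hp : U.starProjection (p : E n) = (p : E n) :=
      Submodule.starProjection_eq_self_iff.2 p.2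
    have hq : U.starProjection (q : E n) = 0 :=
      U.starProjection_apply_eq_zero_iff.2 q.2
    simp [e, stretch, Submodule.coe_prodEquivOfIsCompl', hp, hq, sub_smul]
    abel
  rw [hconj, LinearMap.det_conj, LinearMap.det_prodMap, LinearMap.det_smul, LinearMap.det_id,
    LinearMap.det_id, mul_one, mul_one]

/-- The points of a ball whose projection to `U` is longer than one. -/
lemma volume_far_le (U : Submodule ℝ (E n)) {d : ℕ} (hd : Module.finrank ℝ U ≤ d) {R t : ℝ}
    (hR : 1 ≤ R) (ht : 0 < t) (ht1 : t ≤ 1) :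
    (volume {x : E n | ‖x‖ ≤ R ∧ 1 < ‖U.starProjection x‖}).toReal ≤
      kappa n * (√(R ^ 2 - 1 + t) ^ n * (√t)⁻¹ ^ d) := by
  set a := (√t)⁻¹ with ha
  set ρ := √(R ^ 2 - 1 + t)
  have hR2 : 0 ≤ R ^ 2 - 1 + t := by nlinarith
  have ha1 : 1 ≤ a := by
    rw [ha, one_le_inv₀ (Real.sqrt_pos.2 ht)]; exact Real.sqrt_le_one.2 ht1
  have hsub : {x : E n | ‖x‖ ≤ R ∧ 1 < ‖U.starProjection x‖} ⊆
      stretch U a '' Metric.closedBall 0 ρ := by
    intro x hx
    refine ⟨stretch U (√t) x, ?_, ?_⟩
    · rw [mem_closedBall_zero_iff]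
      refine Real.le_sqrt_of_sq_le ?_
      set p := U.starProjection x
      have hdec : U.starProjection x + Uᗮ.starProjection x = x :=
        U.starProjection_add_starProjection_orthogonal x
      set q := Uᗮ.starProjection x
      have horth : ⟪p, q⟫ = 0 :=
        Submodule.inner_right_of_mem_orthogonal (U.starProjection_apply_mem x)
          (Uᗮ.starProjection_apply_mem x)
      have h1 : stretch U (√t) x = (√t) • p + q := by
        have : q = x - p := eq_sub_of_add_eq' hdec
        simp [stretch, p, this, sub_smul]; abel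
      have h2 : ‖x‖ ^ 2 = ‖p‖ ^ 2 + ‖q‖ ^ 2 := by
        rw [← hdec, norm_add_sq_real, horth]; ring
      have h3 : ‖stretch U (√t) x‖ ^ 2 = t * ‖p‖ ^ 2 + ‖q‖ ^ 2 := by
        rw [h1, norm_add_sq_real, real_inner_smul_left, horth, norm_smul, mul_pow,
          Real.norm_eq_abs, sq_abs, Real.sq_sqrt ht.le]; ring
      have h4 : 1 ≤ ‖p‖ ^ 2 := one_le_pow₀ hx.2.le
      have h5 : ‖x‖ ^ 2 ≤ R ^ 2 := pow_le_pow_left₀ (norm_nonneg _) hx.1 2
      nlinarith
    · have hPP : U.starProjection (U.starProjection x) = U.starProjection x :=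
        Submodule.starProjection_eq_self_iff.2 (U.starProjection_apply_mem x)
      have hs : a * √t = 1 := inv_mul_cancel₀ (Real.sqrt_pos.2 ht).ne'
      simp only [stretch, LinearMap.add_apply, LinearMap.id_apply, LinearMap.smul_apply,
        ContinuousLinearMap.coe_coe, map_add, map_smul, hPP]
      match_scalars
      · ring
      · linear_combination hs
  have hfin : volume (stretch U a '' Metric.closedBall 0 ρ) ≠ ⊤ :=
    ((isCompact_closedBall _ _).image
      (LinearMap.continuous_of_finiteDimensional _)).measure_lt_top.ne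
  refine (ENNReal.toReal_mono hfin (measure_mono hsub)).trans ?_
  rw [Measure.addHaar_image_linearMap, ENNReal.toReal_mul, det_stretch,
    volume_closedBall_toReal _ (Real.sqrt_nonneg _),
    ENNReal.toReal_ofReal (abs_nonneg _), abs_of_nonneg (by positivity)]
  have hk : 0 ≤ kappa n := ENNReal.toReal_nonneg
  have : a ^ Module.finrank ℝ U ≤ a ^ d := pow_le_pow_right₀ ha1 hd
  calc a ^ Module.finrank ℝ U * (ρ ^ n * kappa n) ≤ a ^ d * (ρ ^ n * kappa n) := by gcongr
    _ = _ := by ring

/-- Unit normals in `N` subspaces of dimension at most `d` remove little from a ball. -/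
theorem capBound_subspaces {N M d : ℕ} (U : Fin N → Submodule ℝ (E n))
    (hU : ∀ j, Module.finrank ℝ (U j) ≤ d) (e : Fin M → E n) (he : ∀ i, ‖e i‖ ≤ 1)
    (hmem : ∀ i, ∃ j, e i ∈ U j) {R t : ℝ} (hR : 1 ≤ R) (ht : 0 < t) (ht1 : t ≤ 1) :
    kappa n * (R ^ n - N * (√(R ^ 2 - 1 + t) ^ n * (√t)⁻¹ ^ d)) ≤
      (volume (Poly e (fun _ => 1) ∩ Metric.closedBall 0 R)).toReal := by
  set L := Poly e (fun _ => 1) ∩ Metric.closedBall 0 R
  set F := fun j => {x : E n | ‖x‖ ≤ R ∧ 1 < ‖(U j).starProjection x‖}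
  have hsub : Metric.closedBall (0 : E n) R ⊆ L ∪ ⋃ j, F j := by
    intro x hx
    by_cases h : x ∈ Poly e fun _ => 1
    · exact Or.inl ⟨h, hx⟩
    · simp only [Poly, mem_ofPred_eq, not_forall, not_le] at h
      obtain ⟨i, hi⟩ := h
      obtain ⟨j, hj⟩ := hmem i
      refine Or.inr (mem_iUnion.2 ⟨j, mem_closedBall_zero_iff.1 hx, ?_⟩)
      have h1 : ⟪e i, x⟫ = ⟪e i, (U j).starProjection x⟫ := by
        rw [← Submodule.inner_starProjection_left_eq_right,
          Submodule.starProjection_eq_self_iff.2 hj]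
      have h2 := real_inner_le_norm (e i) ((U j).starProjection x)
      have h3 : ‖e i‖ * ‖(U j).starProjection x‖ ≤ 1 * ‖(U j).starProjection x‖ :=
        mul_le_mul_of_nonneg_right (he i) (norm_nonneg _)
      linarith
  have hFfin : ∀ j, volume (F j) ≠ ⊤ := fun j =>
    ((measure_mono fun x hx => mem_closedBall_zero_iff.2 hx.1).trans_lt
      (measure_closedBall_lt_top (x := (0 : E n)) (r := R))).ne
  have hfinL : volume L ≠ ⊤ :=
    ((measure_mono inter_subset_right).trans_lt measure_closedBall_lt_top).ne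
  have hfinU : volume (⋃ j, F j) ≠ ⊤ :=
    (lt_of_le_of_lt (measure_iUnion_fintype_le _ _)
      (ENNReal.sum_lt_top.2 fun j _ => (hFfin j).lt_top)).ne
  have h := ENNReal.toReal_mono (ENNReal.add_ne_top.2 ⟨hfinL, hfinU⟩)
    ((measure_mono hsub).trans (measure_union_le L _))
  rw [ENNReal.toReal_add hfinL hfinU, volume_closedBall_toReal 0 (zero_le_one.trans hR)] at h
  have hsum : (volume (⋃ j, F j)).toReal ≤
      N * (kappa n * (√(R ^ 2 - 1 + t) ^ n * (√t)⁻¹ ^ d)) := by
    refine (ENNReal.toReal_mono (ENNReal.sum_lt_top.2 fun j _ => (hFfin j).lt_top).ne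
      (measure_iUnion_fintype_le _ _)).trans ?_
    rw [ENNReal.toReal_sum fun j _ => hFfin j]
    refine (Finset.sum_le_sum fun j _ => volume_far_le (U j) (hU j) hR ht ht1).trans ?_
    simp
  linarith

end Vale.Agent.P237
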