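import Vale.Agent.P237.Statement

/-!
P237: named parts of the statement about intersections of cylinders.
-/

noncomputable section

open MeasureTheory Set
open scoped RealInnerProductSpace

namespace Vale.Agent.P237

variable {n N : ℕ}

/-- `C j` is a closed convex cylinder over a base in `V j`, of dimension at most `d`. -/
def AreCylinders (d : ℕ) (V : Fin N → Submodule ℝ (E n)) (C : Fin N → Set (E n)) : Prop :=
  ∀ j, Module.finrank ℝ (V j) ≤ d ∧ IsClosed (C j) ∧ Convex ℝ (C j) ∧
    ∀ x ∈ C j, ∀ y ∈ (V j)ᗮ, x + y ∈ C j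

/-- A convex body that is the intersection of `N` cylinders with bases of dimension at most `d`. -/
def IsCylinderBody (N d : ℕ) (K : Set (E n)) : Prop :=
  IsCompact K ∧ (interior K).Nonempty ∧
    ∃ (V : Fin N → Submodule ℝ (E n)) (C : Fin N → Set (E n)),
      AreCylinders d V C ∧ K = ⋂ j, C j

/-- The factor by which `d`-dimensional bases and the parameter `t` shrink a cap. -/
def capFactor (n d : ℕ) (t : ℝ) : ℝ :=
  √(1 - (1 - t) * Real.exp (-1)) ^ n * (√t)⁻¹ ^ d

/-- Petty's inequality for intersections of few cylinders, with a free parameter. -/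
def CylinderPettyParam : Prop :=
  ∀ (n N d : ℕ) (K : Set (E n)) (t : ℝ), 4 ≤ n → IsCylinderBody N d K → 0 < t → t ≤ 1 →
    (N : ℝ) * capFactor n d t ≤ 1 / 2 → PettyStrict K

/-- Petty's inequality for intersections of exponentially many cylinders whose bases have
dimension at most a quarter of `n`. -/
def CylinderPettyQuarter : Prop :=
  ∀ (n N d : ℕ) (K : Set (E n)), 4 ≤ n → IsCylinderBody N d K → 4 * d ≤ n →
    (N : ℝ) * (197 / 200) ^ n ≤ 1 / 2 → PettyStrict K

end Vale.Agent.P237
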