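import Mathlib

/-!
P237: basic definitions for the projection volume of polytopes with few facets.
-/

noncomputable section

open MeasureTheory Set Matrix
open scoped RealInnerProductSpace ENNReal

namespace Vale.Agent.P237

/-- Euclidean space. -/
abbrev E (n : ℕ) := EuclideanSpace ℝ (Fin n)

variable {n : ℕ} {ι : Type*}

/-- The intersection of the half-spaces `⟪v i, x⟫ ≤ c i`. -/
def Poly (v : ι → E n) (c : ι → ℝ) : Set (E n) := {x | ∀ i, ⟪v i, x⟫ ≤ c i}

/-- The `(n-1)`-dimensional volume of the orthogonal projection of `K` onto `uᗮ`. -/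
def projArea (K : Set (E n)) (u : E n) : ℝ :=
  (volume ((ℝ ∙ u)ᗮ.orthogonalProjectionOnto '' K)).toReal

/-- The projection body: the convex body with support function `projArea K` on the unit sphere. -/
def projBody (K : Set (E n)) : Set (E n) :=
  {y | ∀ u : E n, ‖u‖ = 1 → ⟪y, u⟫ ≤ projArea K u}

/-- The volume of the unit ball of `ℝ^m`. -/
def kappa (m : ℕ) : ℝ := (volume (Metric.ball (0 : E m) 1)).toReal

/-- The cone from the origin over the facet of `Poly v 1` with normal `v i`. -/
def cone (v : ι → E n) (i : ι) : Set (E n) :=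
  {x | ⟪v i, x⟫ ≤ 1 ∧ ∀ j, ⟪v j, x⟫ ≤ ⟪v i, x⟫}

/-- The volume of a facet cone. -/
def coneVol (v : ι → E n) (i : ι) : ℝ := (volume (cone v i)).toReal

/-- The zonotope spanned by the segments from `0` to `a i`. -/
def zono [Fintype ι] (a : ι → E n) : Set (E n) :=
  (fun l : ι → ℝ => ∑ i, l i • a i) '' univ.pi fun _ => Icc (0 : ℝ) 1

/-- The weighted Gram matrix of a family of vectors. -/
def gram [Fintype ι] (w : ι → ℝ) (a : ι → E n) : Matrix (Fin n) (Fin n) ℝ :=
  ∑ i, w i • vecMulVec (⇑(a i)) (⇑(a i))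

end Vale.Agent.P237
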