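import Vale.Agent.P237.Defs

/-!
P237: named parts of the statement about polytopes with few facets.
-/

noncomputable section

open MeasureTheory Set
open scoped RealInnerProductSpace

namespace Vale.Agent.P237

variable {n : ℕ}

/-- The volume of a set as a real number. -/
def vol (S : Set (E n)) : ℝ := (volume S).toReal

/-- A bounded intersection of half-spaces with nonempty interior. -/
def IsPolytope {N : ℕ} (w : Fin N → E n) (c : Fin N → ℝ) : Prop :=
  Bornology.IsBounded (Poly w c) ∧ (interior (Poly w c)).Nonempty

/-- The cylinder of height one over the orthogonal projection of `K` along `u`. -/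
def shadowCylinder (K : Set (E n)) (u : E n) : Set (E n) :=
  {x | ⟪u, x⟫ ∈ Icc (0 : ℝ) 1 ∧ ∃ s : ℝ, x + s • u ∈ K}

/-- The projection body: its support function at a unit vector `u` is the volume of the cylinder
of height one over the shadow of `K` on the hyperplane orthogonal to `u`. -/
def projectionBody (K : Set (E n)) : Set (E n) :=
  {y | ∀ u : E n, ‖u‖ = 1 → ⟪y, u⟫ ≤ vol (shadowCylinder K u)}

/-- Petty's projection volume inequality, strict, for the set `K`. -/
def PettyStrict (K : Set (E n)) : Prop :=
  kappa (n - 1) ^ n * kappa n ^ ((2 : ℤ) - n) * vol K ^ (n - 1) < vol (projectionBody K)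

/-- The lower bound for the projection volume of a polytope with `N` facets. -/
def GeneralBound : Prop :=
  ∀ (n N : ℕ) (w : Fin N → E n) (c : Fin N → ℝ) (R : ℝ), 1 ≤ n → 1 ≤ R → IsPolytope w c →
    kappa n * (R ^ n - N * √(R ^ 2 - 1) ^ n) * vol (Poly w c) ^ (n - 1) ≤
      vol (projectionBody (Poly w c))

/-- Petty's inequality for compact sets with a large inscribed polytope with few facets. -/
def LargeCore : Prop :=
  ∀ (n N : ℕ) (w : Fin N → E n) (c : Fin N → ℝ) (K : Set (E n)) (t : ℝ), 4 ≤ n → IsCompact K →
    Poly w c ⊆ K → IsPolytope w c → 0 < t → t ≤ 1 → t * vol K ≤ vol (Poly w c) →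
    (N : ℝ) * √(1 - t ^ 2 * Real.exp (-1)) ^ n ≤ 1 / 2 → PettyStrict K

/-- Petty's inequality for polytopes with at most `2n` facets in dimension at least `20`. -/
def FewFacets : Prop :=
  ∀ (n N : ℕ) (w : Fin N → E n) (c : Fin N → ℝ), 20 ≤ n → N ≤ 2 * n → IsPolytope w c →
    PettyStrict (Poly w c)

end Vale.Agent.P237
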